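import Vale.Agent.P297.H278.Z2.InvId

/-!
The two invariants of the quartic of a node are `(al be) ^ 4 p(l)` and `(al be) ^ 6 q(l)`, with
polynomials `p`, `q` of degrees at most `4` and `6` which do not depend on the node.
-/

set_option linter.unusedSectionVars false
set_option linter.unusedVariables false

open Polynomial

namespace Vale.Agent.P297.H278

open Vale.Agent.P297.H160 Vale.Agent.P297.H572 Vale.Agent.P297.Z2 Vale.Agent.P297.G4

/-! ### The polynomials of the tables -/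

/-- the polynomial of a leaf -/
noncomputable def trP (P0 P2 Q0 Q1 D w0 w1 k0 k1 : ℂ) (w i j q0 q1 d k : ℕ) (cs : List ℤ) : ℂ[X] :=
  C (P0 ^ i * P2 ^ j * (Q0 ^ q0 * Q1 ^ q1 * D ^ d)) *
    (hor cs X * (C w0 + C w1 * X) ^ w * (C k0 + C k1 * X) ^ k)

/-- the test of the degrees -/
def tdeg (N w i j k : ℕ) (cs : List ℤ) : Bool :=
  Nat.ble i N && (Nat.ble j N && Nat.ble (w + k + cs.length) (N + 1))

theorem tI_ok : tI.all (tdeg 4) = true := by decide +kernel

theorem tJ_ok : tJ.all (tdeg 6) = true := by decide +kernel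

theorem natDegree_hor : ∀ (cs : List ℤ) (n : ℕ), cs.length ≤ n + 1 →
    (hor cs (X : ℂ[X])).natDegree ≤ n
  | [], n, _ => by
    change (0 : ℂ[X]).natDegree ≤ n
    simp
  | a :: l, n, h => by
    change ((a : ℂ[X]) + X * hor l X).natDegree ≤ n
    refine (natDegree_add_le _ _).trans (max_le ?_ ?_)
    · rw [natDegree_intCast]
      exact Nat.zero_le _
    · cases n with
      | zero =>
        have : l = [] := by
          rw [← List.length_eq_zero_iff]
          simpa using h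
        subst this
        change (X * (0 : ℂ[X])).natDegree ≤ 0
        simp
      | succ n =>
        refine natDegree_mul_le.trans ?_
        have h1 := natDegree_hor l n (by simpa using h)
        rw [natDegree_X]
        omega

theorem natDegree_lin (a b : ℂ) (n : ℕ) : ((C a + C b * X) ^ n : ℂ[X]).natDegree ≤ n := by
  refine natDegree_pow_le.trans ?_
  have : (C a + C b * X : ℂ[X]).natDegree ≤ 1 := by
    rw [add_comm]
    exact natDegree_linear_le
  nlinarith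

theorem natDegree_sum {P0 P2 Q0 Q1 D w0 w1 k0 k1 : ℂ} {N : ℕ} (t : Tt)
    (h : t.all (tdeg N) = true) : (t.sum (trP P0 P2 Q0 Q1 D w0 w1 k0 k1)).natDegree ≤ N := by
  induction t with
  | lf w i j q0 q1 d k cs =>
    simp only [Tt.all, tdeg, Bool.and_eq_true, Nat.ble_eq] at h
    simp only [Tt.sum, trP]
    refine (natDegree_C_mul_le _ _).trans ?_
    have h1 := natDegree_lin w0 w1 w
    have h2 := natDegree_lin k0 k1 k
    by_cases hc : cs = []
    · subst hc
      change ((0 : ℂ[X]) * _ * _).natDegree ≤ N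
      simp
    · have hl : 0 < cs.length := List.length_pos_iff.mpr hc
      have h3 := natDegree_hor cs (cs.length - 1) (by omega)
      refine natDegree_mul_le.trans ?_
      have h4 := natDegree_mul_le (p := hor cs (X : ℂ[X])) (q := (C w0 + C w1 * X) ^ w)
      omega
  | nd s t h1 h2 =>
    simp only [Tt.all, Bool.and_eq_true] at h
    simp only [Tt.sum]
    exact (natDegree_add_le _ _).trans (max_le (h1 h.1) (h2 h.2))

section

variable {N : Type} [CommRing N] [Algebra ℂ N]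

theorem pow_key {al be A C P0 P2 : N} (hA : al * A = be * P2) (hC : be * C = al * P0)
    {n i j : ℕ} (hi : i ≤ n) (hj : j ≤ n) : (al * be) ^ n * (P0 ^ i * P2 ^ j) =
      al ^ (n + j - i) * be ^ (n + i - j) * (A ^ j * C ^ i) := by
  obtain ⟨i', rfl⟩ := Nat.exists_eq_add_of_le hi
  obtain ⟨j', hj'⟩ := Nat.exists_eq_add_of_le hj
  have e1 : i + i' + j - i = i' + j := by omega
  have e2 : i + i' + i - j = j' + i := by omega
  rw [e1, e2]
  have h1 : (al * be) ^ (i + i') = al ^ i * al ^ i' * (be ^ j * be ^ j') := by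
    rw [mul_pow]
    congr 1
    · rw [pow_add]
    · rw [hj', pow_add]
  rw [h1]
  have h2 : al ^ i * P0 ^ i = be ^ i * C ^ i := by rw [← mul_pow, ← mul_pow, hC]
  have h3 : be ^ j * P2 ^ j = al ^ j * A ^ j := by rw [← mul_pow, ← mul_pow, hA]
  rw [pow_add al, pow_add be]
  linear_combination (al ^ i' * be ^ j' * (be ^ j * P2 ^ j)) * h2 +
    (al ^ i' * be ^ j' * (be ^ i * C ^ i)) * h3

theorem hor_aeval (cs : List ℤ) (l : N) : aeval l (hor cs (X : ℂ[X])) = hor cs l := by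
  have := map_hor (aeval l : ℂ[X] →ₐ[ℂ] N).toRingHom cs X
  change aeval l (hor cs (X : ℂ[X])) = hor cs (aeval l (X : ℂ[X])) at this
  rw [this, aeval_X]

theorem sum_eq {P0 P2 Q0 Q1 D w0 w1 k0 k1 : ℂ} {n : ℕ} {al be l A' C' : N}
    (hA : al * A' = be * algebraMap ℂ N P2) (hC : be * C' = al * algebraMap ℂ N P0)
    (t : Tt) (h : t.all (tdeg n) = true) :
    (al * be) ^ n * aeval l (t.sum (trP P0 P2 Q0 Q1 D w0 w1 k0 k1)) =
      t.sum (trm n al be l (algebraMap ℂ N k0 + algebraMap ℂ N k1 * l) A' C'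
        (algebraMap ℂ N Q0) (algebraMap ℂ N Q1) (algebraMap ℂ N D)
        (algebraMap ℂ N w0 + algebraMap ℂ N w1 * l)) := by
  induction t with
  | lf w i j q0 q1 d k cs =>
    simp only [Tt.all, tdeg, Bool.and_eq_true, Nat.ble_eq] at h
    have hk := pow_key hA hC h.1 h.2.1
    simp only [Tt.sum, trP, trm, map_mul, map_pow, map_add, aeval_C, aeval_X, hor_aeval]
    linear_combination (algebraMap ℂ N Q0 ^ q0 * algebraMap ℂ N Q1 ^ q1 * algebraMap ℂ N D ^ d *
      (hor cs l * (algebraMap ℂ N w0 + algebraMap ℂ N w1 * l) ^ w *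
        (algebraMap ℂ N k0 + algebraMap ℂ N k1 * l) ^ k)) * hk
  | nd s t h1 h2 =>
    simp only [Tt.all, Bool.and_eq_true] at h
    simp only [Tt.sum, map_add, mul_add, h1 h.1, h2 h.2]

end

/-! ### The data of a node -/

section

variable {A : Type} [CommRing A]

/-- **The data of a node** of the double solid with the parameters
`P0, P1, P2, Q0, Q1, u, v, m, n`. -/
structure NodeTD (P0 P1 P2 Q0 Q1 u v m n : A) (d : TD A) : Prop where
  sub : d.be - d.al = 1 - d.l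
  e : d.e = 1 - d.l
  hA : d.al * d.A = d.be * P2
  hC : d.be * d.C = d.al * P0
  pn : d.pn = d.al * u - d.C
  rn : d.rn = -(d.be * v) - d.A
  kp : d.kp = d.al * d.be * (Q0 - d.l * (u + v)) + d.l * d.e * d.A
  kr : d.kr = d.al * d.be * (Q1 - d.l * (u + v)) + d.l * d.e * d.C
  w0 : d.w0 = -(d.al * d.be * (m - d.l * n)) + 2 * d.l * d.e * d.A * d.C -
    d.l * d.e * d.al * d.be * u * v - d.l * d.al * (2 * d.be - d.al) * d.A * u -
    d.l * d.be * (2 * d.al - d.be) * d.C * v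
  cub : d.l * P1 = d.l * (d.A + d.C) - d.al * Q0 + d.be * Q1

/-- the same node in the gauge `v = 0` -/
def gau (d : TD A) (ka Q0 Q1 D : A) : TD A where
  al := d.al
  be := d.be
  l := d.l
  e := d.e
  A := d.A
  C := d.C
  pn := d.al * D - d.C
  rn := -d.A
  kp := d.al * d.be * (Q0 - d.l * D) + d.l * d.e * d.A
  kr := d.al * d.be * (Q1 - d.l * D) + d.l * d.e * d.C
  w0 := 2 * d.l * d.e * d.A * d.C - d.al * d.be * ka -
    d.l * d.al * (2 * d.be - d.al) * d.A * D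

theorem gau_spec {d : TD A} (h1 : d.be - d.al = 1 - d.l) (h2 : d.e = 1 - d.l)
    (ka Q0 Q1 D : A) : Gau (gau d ka Q0 Q1 D) ka Q0 Q1 D where
  be := by
    change d.be = d.al + (1 - d.l)
    linear_combination h1
  e := h2
  pn := rfl
  rn := rfl
  kp := rfl
  kr := rfl
  w0 := rfl

/-- **The gauge.** -/
theorem qc_gau {P0 P1 P2 Q0 Q1 u v m n : A} {d : TD A} (h : NodeTD P0 P1 P2 Q0 Q1 u v m n d) :
    (gau d (m - v ^ 2 + (P1 * v - n + v ^ 2) * d.l) (Q0 - 2 * v) (Q1 - 2 * v) (u - v)).qc =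
      d.qc := by
  set d' := gau d (m - v ^ 2 + (P1 * v - n + v ^ 2) * d.l) (Q0 - 2 * v) (Q1 - 2 * v) (u - v)
    with hd'
  have a1 : d'.al = d.al := rfl
  have a2 : d'.be = d.be := rfl
  have a3 : d'.l = d.l := rfl
  have a4 : d'.e = d.e := rfl
  have a5 : d'.A = d.A := rfl
  have a6 : d'.C = d.C := rfl
  have he : d.e = d.be - d.al := by rw [h.e, h.sub]
  have hl : d.l = 1 - (d.be - d.al) := by rw [h.sub]; ring
  have b1 : d'.pn = d.pn - d.al * v := by
    rw [h.pn]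
    change d.al * (u - v) - d.C = _
    ring
  have b2 : d'.rn = d.rn + d.be * v := by
    rw [h.rn]
    change -d.A = _
    ring
  have b3 : d'.kp = d.kp - 2 * d.al * d.be * d.e * v := by
    rw [h.kp]
    change d.al * d.be * (Q0 - 2 * v - d.l * (u - v)) + d.l * d.e * d.A = _
    linear_combination (2 * d.al * d.be * v) * h.e
  have b4 : d'.kr = d.kr - 2 * d.al * d.be * d.e * v := by
    rw [h.kr]
    change d.al * d.be * (Q1 - 2 * v - d.l * (u - v)) + d.l * d.e * d.C = _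
    linear_combination (2 * d.al * d.be * v) * h.e
  have b5 : d'.w0 = d.w0 + v * (d.al * d.kp - d.be * d.kr) + d.al * d.be * d.e ^ 2 * v ^ 2 := by
    rw [h.w0, h.kp, h.kr]
    change 2 * d.l * d.e * d.A * d.C -
      d.al * d.be * (m - v ^ 2 + (P1 * v - n + v ^ 2) * d.l) -
      d.l * d.al * (2 * d.be - d.al) * d.A * (u - v) = _
    have h1 := h.cub
    rw [he]
    linear_combination (-(d.al * d.be * v)) * h1 -
      (d.al * d.be * v ^ 2 * (1 + (d.be - d.al))) * h.sub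
  have c1 : d'.c = d.c := by
    unfold TD.c
    rw [a1, a2, b1, b2]
    ring
  have c2 : d'.Q20 = d.Q20 := by
    unfold TD.Q20
    rw [a1, a2, a5, a6]
  have c3 : d'.h0 = d.h0 := by
    unfold TD.h0
    rw [a1, a2, a5, a6]
  have c4 : d'.h1 = d.h1 := by
    unfold TD.h1
    rw [a1, a2, a5, a6]
  have c5 : d'.Y11 = d.Y11 := by
    unfold TD.Y11
    rw [a1, a2, a3]
  have c6 : d'.Y10 = d.Y10 := by
    unfold TD.Y10
    rw [a1, a2, a3, a4, a5, a6, b1, b2, b3, b4, he]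
    ring
  have c7 : d'.Y02 = d.Y02 := by
    unfold TD.Y02
    rw [a3, a4]
  have c8 : d'.Y01 = d.Y01 := by
    unfold TD.Y01
    rw [a3, c3, c1, b3, b4]
    ring
  have c9 : d'.Y00 = d.Y00 := by
    unfold TD.Y00
    rw [a1, a2, a3, a4, c1, c2, c3, b1, b2, b3, b4, b5, he]
    unfold TD.c
    ring
  have c10 : d'.mu0 = d.mu0 := by
    unfold TD.mu0
    rw [a3, c3, b3, b4]
    ring
  have c11 : d'.ze0 = d.ze0 := by
    unfold TD.ze0
    rw [a1, a2, c2, b1, b2, b3, b4, b5, he]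
    ring
  have c12 : d'.K12 = d.K12 := by
    unfold TD.K12
    rw [a3, a4]
  have c13 : d'.K11 = d.K11 := by
    unfold TD.K11
    rw [a1, a2, b1, b2, b3, b4, he]
    ring
  have c14 : d'.K10 = d.K10 := by
    unfold TD.K10
    rw [a1, a2, a3, a4, a5, a6, c2, b1, b2, b3, b4, he]
    ring
  have c15 : d'.G3 = d.G3 := by
    unfold TD.G3
    rw [a3, a4]
  unfold TD.qc TD.G2 TD.G1 TD.G0 TD.D2 TD.D1 TD.D0
  rw [a1, a2, a3, a4, c1, c2, c3, c4, c5, c6, c7, c8, c9, c10, c11, c12, c13, c14, c15]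

end

/-! ### The result -/

/-- the polynomial `p` -/
noncomputable def pI (P0 P1 P2 Q0 Q1 u v m n : ℂ) : ℂ[X] :=
  tI.sum (trP P0 P2 (Q0 - 2 * v) (Q1 - 2 * v) (u - v) (-(2 * v)) (P1 + 2 * v) (m - v ^ 2)
    (P1 * v - n + v ^ 2))

/-- the polynomial `q` -/
noncomputable def pJ (P0 P1 P2 Q0 Q1 u v m n : ℂ) : ℂ[X] :=
  tJ.sum (trP P0 P2 (Q0 - 2 * v) (Q1 - 2 * v) (u - v) (-(2 * v)) (P1 + 2 * v) (m - v ^ 2)
    (P1 * v - n + v ^ 2))

theorem natDegree_pI (P0 P1 P2 Q0 Q1 u v m n : ℂ) :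
    (pI P0 P1 P2 Q0 Q1 u v m n).natDegree ≤ 4 := natDegree_sum tI tI_ok

theorem natDegree_pJ (P0 P1 P2 Q0 Q1 u v m n : ℂ) :
    (pJ P0 P1 P2 Q0 Q1 u v m n).natDegree ≤ 6 := natDegree_sum tJ tJ_ok

section

variable {N : Type} [CommRing N] [Algebra ℂ N]

theorem inv_aux {P0 P1 P2 Q0 Q1 u v m n : ℂ} {d : TD N}
    (h : NodeTD (algebraMap ℂ N P0) (algebraMap ℂ N P1) (algebraMap ℂ N P2)
      (algebraMap ℂ N Q0) (algebraMap ℂ N Q1) (algebraMap ℂ N u) (algebraMap ℂ N v)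
      (algebraMap ℂ N m) (algebraMap ℂ N n) d) {k : ℕ} (t : Tt) (ht : t.all (tdeg k) = true) :
    (d.al * d.be) ^ k * aeval d.l (t.sum (trP P0 P2 (Q0 - 2 * v) (Q1 - 2 * v) (u - v)
      (-(2 * v)) (P1 + 2 * v) (m - v ^ 2) (P1 * v - n + v ^ 2))) =
    t.sum (trm k d.al d.be d.l
      (algebraMap ℂ N m - algebraMap ℂ N v ^ 2 + (algebraMap ℂ N P1 * algebraMap ℂ N v -
        algebraMap ℂ N n + algebraMap ℂ N v ^ 2) * d.l) d.A d.C
      (algebraMap ℂ N Q0 - 2 * algebraMap ℂ N v) (algebraMap ℂ N Q1 - 2 * algebraMap ℂ N v)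
      (algebraMap ℂ N u - algebraMap ℂ N v)
      (d.l * (d.A + d.C) - d.al * (algebraMap ℂ N Q0 - 2 * algebraMap ℂ N v) +
        d.be * (algebraMap ℂ N Q1 - 2 * algebraMap ℂ N v))) := by
  have h1 := sum_eq (P0 := P0) (P2 := P2) (Q0 := Q0 - 2 * v) (Q1 := Q1 - 2 * v) (D := u - v)
    (w0 := -(2 * v)) (w1 := P1 + 2 * v) (k0 := m - v ^ 2) (k1 := P1 * v - n + v ^ 2) (n := k)
    (l := d.l) h.hA h.hC t ht
  rw [h1]
  have h2 : algebraMap ℂ N (-(2 * v)) + algebraMap ℂ N (P1 + 2 * v) * d.l =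
      d.l * (d.A + d.C) - d.al * (algebraMap ℂ N Q0 - 2 * algebraMap ℂ N v) +
        d.be * (algebraMap ℂ N Q1 - 2 * algebraMap ℂ N v) := by
    have h3 := h.cub
    have h4 := h.sub
    simp only [map_neg, map_add, map_mul, map_ofNat]
    linear_combination h3 + (2 * algebraMap ℂ N v) * h4
  rw [h2]
  simp only [map_sub, map_add, map_mul, map_pow, map_ofNat]

/-- **The invariants of the quartic of a node.** -/
theorem inv_node {P0 P1 P2 Q0 Q1 u v m n : ℂ} {d : TD N}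
    (h : NodeTD (algebraMap ℂ N P0) (algebraMap ℂ N P1) (algebraMap ℂ N P2)
      (algebraMap ℂ N Q0) (algebraMap ℂ N Q1) (algebraMap ℂ N u) (algebraMap ℂ N v)
      (algebraMap ℂ N m) (algebraMap ℂ N n) d) :
    qI d.qc = (d.al * d.be) ^ 4 * aeval d.l (pI P0 P1 P2 Q0 Q1 u v m n) ∧
      qJ d.qc = (d.al * d.be) ^ 6 * aeval d.l (pJ P0 P1 P2 Q0 Q1 u v m n) := by
  have g := gau_spec h.sub h.e
    (algebraMap ℂ N m - algebraMap ℂ N v ^ 2 + (algebraMap ℂ N P1 * algebraMap ℂ N v -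
      algebraMap ℂ N n + algebraMap ℂ N v ^ 2) * d.l) (algebraMap ℂ N Q0 - 2 * algebraMap ℂ N v)
    (algebraMap ℂ N Q1 - 2 * algebraMap ℂ N v) (algebraMap ℂ N u - algebraMap ℂ N v)
  have g1 := invI g
  have g2 := invJ g
  rw [qc_gau h] at g1 g2
  rw [g1, g2, pI, pJ, inv_aux h tI tI_ok, inv_aux h tJ tJ_ok]
  exact ⟨rfl, rfl⟩

end

/-- **[INV]** -/
theorem inv_poly (P0 P1 P2 Q0 Q1 u v m n : ℂ) : ∃ p q : ℂ[X], p.natDegree ≤ 4 ∧
    q.natDegree ≤ 6 ∧ ∀ (N : Type) [Field N] [Algebra ℂ N] (d : TD N),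
      NodeTD (algebraMap ℂ N P0) (algebraMap ℂ N P1) (algebraMap ℂ N P2)
        (algebraMap ℂ N Q0) (algebraMap ℂ N Q1) (algebraMap ℂ N u) (algebraMap ℂ N v)
        (algebraMap ℂ N m) (algebraMap ℂ N n) d →
      qI d.qc = (d.al * d.be) ^ 4 * aeval d.l p ∧
        qJ d.qc = (d.al * d.be) ^ 6 * aeval d.l q :=
  ⟨pI P0 P1 P2 Q0 Q1 u v m n, pJ P0 P1 P2 Q0 Q1 u v m n, natDegree_pI _ _ _ _ _ _ _ _ _,
    natDegree_pJ _ _ _ _ _ _ _ _ _, fun _ _ _ _ h => inv_node h⟩

end Vale.Agent.P297.H278
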