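import Vale.Agent.P297.H278.Z2.InvTab
import Vale.Agent.P297.H940.Z2.Tan

/-!
The two invariants of the quartic of a node are polynomials in `l`, up to powers of `al be`: the
identities.
-/

set_option linter.unusedSectionVars false
set_option linter.unusedVariables false
set_option linter.unusedSimpArgs false

namespace Vale.Agent.P297.H278

open Vale.Agent.P297.H160 Vale.Agent.P297.H572 Vale.Agent.P297.Z2 Vale.Agent.P297.G4

section

variable {A : Type} [CommRing A]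

theorem run_step {L st k : List A} {e : E1} {es : List E1} {v : A} (h : ev (rg L) st e = v)
    (h2 : run (rg L) (v :: st) es = k) : run (rg L) st (e :: es) = k := by
  rw [run_cons, h, h2]

/-- The data of a node in the gauge `v = 0`. -/
structure Gau (d : TD A) (ka Q0 Q1 D : A) : Prop where
  be : d.be = d.al + (1 - d.l)
  e : d.e = 1 - d.l
  pn : d.pn = d.al * D - d.C
  rn : d.rn = -d.A
  kp : d.kp = d.al * d.be * (Q0 - d.l * D) + d.l * d.e * d.A
  kr : d.kr = d.al * d.be * (Q1 - d.l * D) + d.l * d.e * d.C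
  w0 : d.w0 = 2 * d.l * d.e * d.A * d.C - d.al * d.be * ka -
    d.l * d.al * (2 * d.be - d.al) * d.A * D

theorem run_pre {d : TD A} {ka Q0 Q1 D : A} (h : Gau d ka Q0 Q1 D) :
    run (rg [d.al, d.l, ka, d.A, d.C, Q0, Q1, D]) [] pre =
      [(d.l * (d.A + d.C) - d.al * Q0 + d.be * Q1), (d.qc 4), (d.qc 3), (d.qc 2),
      (d.qc 1), (d.qc 0), d.D0, d.D1, d.D2, d.G0, d.G1, d.G2, d.G3, d.K10, d.K11, d.K12,
      d.ze0, d.mu0, d.Y00, d.Y01, d.Y02, d.Y10, d.Y11, d.h1, d.h0, d.Q20, d.c, d.w0,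
      d.kr, d.kp, d.rn, d.pn, d.e, d.be] := by
  unfold pre
  refine run_step (v := d.be) ?_ ?_
  · simp only [ev_add, ev_sub, ev_mul, ev_pow, ev_k, ev_v, ev_r, nth_succ, nth_zero, vec_s, vec_0,
      Int.cast_ofNat, Int.cast_zero, Int.cast_one]
    linear_combination (-1 : A) * h.be
  refine run_step (v := d.e) ?_ ?_
  · simp only [ev_add, ev_sub, ev_mul, ev_pow, ev_k, ev_v, ev_r, nth_succ, nth_zero, vec_s, vec_0,
      Int.cast_ofNat, Int.cast_zero, Int.cast_one]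
    linear_combination (-1 : A) * h.e
  refine run_step (v := d.pn) ?_ ?_
  · simp only [ev_add, ev_sub, ev_mul, ev_pow, ev_k, ev_v, ev_r, nth_succ, nth_zero, vec_s, vec_0,
      Int.cast_ofNat, Int.cast_zero, Int.cast_one]
    linear_combination (-1 : A) * h.pn
  refine run_step (v := d.rn) ?_ ?_
  · simp only [ev_add, ev_sub, ev_mul, ev_pow, ev_k, ev_v, ev_r, nth_succ, nth_zero, vec_s, vec_0,
      Int.cast_ofNat, Int.cast_zero, Int.cast_one]
    linear_combination (-1 : A) * h.rn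
  refine run_step (v := d.kp) ?_ ?_
  · simp only [ev_add, ev_sub, ev_mul, ev_pow, ev_k, ev_v, ev_r, nth_succ, nth_zero, vec_s, vec_0,
      Int.cast_ofNat, Int.cast_zero, Int.cast_one]
    linear_combination (-1 : A) * h.kp
  refine run_step (v := d.kr) ?_ ?_
  · simp only [ev_add, ev_sub, ev_mul, ev_pow, ev_k, ev_v, ev_r, nth_succ, nth_zero, vec_s, vec_0,
      Int.cast_ofNat, Int.cast_zero, Int.cast_one]
    linear_combination (-1 : A) * h.kr
  refine run_step (v := d.w0) ?_ ?_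
  · simp only [ev_add, ev_sub, ev_mul, ev_pow, ev_k, ev_v, ev_r, nth_succ, nth_zero, vec_s, vec_0,
      Int.cast_ofNat, Int.cast_zero, Int.cast_one]
    linear_combination (-1 : A) * h.w0
  refine run_step (v := d.c) ?_ ?_
  · simp only [ev_add, ev_sub, ev_mul, ev_pow, ev_k, ev_v, ev_r, nth_succ, nth_zero, vec_s, vec_0,
      Int.cast_ofNat, Int.cast_zero, Int.cast_one]
    unfold TD.c
    ring
  refine run_step (v := d.Q20) ?_ ?_
  · simp only [ev_add, ev_sub, ev_mul, ev_pow, ev_k, ev_v, ev_r, nth_succ, nth_zero, vec_s, vec_0,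
      Int.cast_ofNat, Int.cast_zero, Int.cast_one]
    unfold TD.Q20
    ring
  refine run_step (v := d.h0) ?_ ?_
  · simp only [ev_add, ev_sub, ev_mul, ev_pow, ev_k, ev_v, ev_r, nth_succ, nth_zero, vec_s, vec_0,
      Int.cast_ofNat, Int.cast_zero, Int.cast_one]
    unfold TD.h0
    ring
  refine run_step (v := d.h1) ?_ ?_
  · simp only [ev_add, ev_sub, ev_mul, ev_pow, ev_k, ev_v, ev_r, nth_succ, nth_zero, vec_s, vec_0,
      Int.cast_ofNat, Int.cast_zero, Int.cast_one]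
    unfold TD.h1
    ring
  refine run_step (v := d.Y11) ?_ ?_
  · simp only [ev_add, ev_sub, ev_mul, ev_pow, ev_k, ev_v, ev_r, nth_succ, nth_zero, vec_s, vec_0,
      Int.cast_ofNat, Int.cast_zero, Int.cast_one]
    unfold TD.Y11
    ring
  refine run_step (v := d.Y10) ?_ ?_
  · simp only [ev_add, ev_sub, ev_mul, ev_pow, ev_k, ev_v, ev_r, nth_succ, nth_zero, vec_s, vec_0,
      Int.cast_ofNat, Int.cast_zero, Int.cast_one]
    unfold TD.Y10
    ring
  refine run_step (v := d.Y02) ?_ ?_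
  · simp only [ev_add, ev_sub, ev_mul, ev_pow, ev_k, ev_v, ev_r, nth_succ, nth_zero, vec_s, vec_0,
      Int.cast_ofNat, Int.cast_zero, Int.cast_one]
    unfold TD.Y02
    ring
  refine run_step (v := d.Y01) ?_ ?_
  · simp only [ev_add, ev_sub, ev_mul, ev_pow, ev_k, ev_v, ev_r, nth_succ, nth_zero, vec_s, vec_0,
      Int.cast_ofNat, Int.cast_zero, Int.cast_one]
    unfold TD.Y01
    ring
  refine run_step (v := d.Y00) ?_ ?_
  · simp only [ev_add, ev_sub, ev_mul, ev_pow, ev_k, ev_v, ev_r, nth_succ, nth_zero, vec_s, vec_0,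
      Int.cast_ofNat, Int.cast_zero, Int.cast_one]
    unfold TD.Y00
    ring
  refine run_step (v := d.mu0) ?_ ?_
  · simp only [ev_add, ev_sub, ev_mul, ev_pow, ev_k, ev_v, ev_r, nth_succ, nth_zero, vec_s, vec_0,
      Int.cast_ofNat, Int.cast_zero, Int.cast_one]
    unfold TD.mu0
    ring
  refine run_step (v := d.ze0) ?_ ?_
  · simp only [ev_add, ev_sub, ev_mul, ev_pow, ev_k, ev_v, ev_r, nth_succ, nth_zero, vec_s, vec_0,
      Int.cast_ofNat, Int.cast_zero, Int.cast_one]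
    unfold TD.ze0
    ring
  refine run_step (v := d.K12) ?_ ?_
  · simp only [ev_add, ev_sub, ev_mul, ev_pow, ev_k, ev_v, ev_r, nth_succ, nth_zero, vec_s, vec_0,
      Int.cast_ofNat, Int.cast_zero, Int.cast_one]
    unfold TD.K12
    ring
  refine run_step (v := d.K11) ?_ ?_
  · simp only [ev_add, ev_sub, ev_mul, ev_pow, ev_k, ev_v, ev_r, nth_succ, nth_zero, vec_s, vec_0,
      Int.cast_ofNat, Int.cast_zero, Int.cast_one]
    unfold TD.K11
    ring
  refine run_step (v := d.K10) ?_ ?_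
  · simp only [ev_add, ev_sub, ev_mul, ev_pow, ev_k, ev_v, ev_r, nth_succ, nth_zero, vec_s, vec_0,
      Int.cast_ofNat, Int.cast_zero, Int.cast_one]
    unfold TD.K10
    ring
  refine run_step (v := d.G3) ?_ ?_
  · simp only [ev_add, ev_sub, ev_mul, ev_pow, ev_k, ev_v, ev_r, nth_succ, nth_zero, vec_s, vec_0,
      Int.cast_ofNat, Int.cast_zero, Int.cast_one]
    unfold TD.G3
    ring
  refine run_step (v := d.G2) ?_ ?_
  · simp only [ev_add, ev_sub, ev_mul, ev_pow, ev_k, ev_v, ev_r, nth_succ, nth_zero, vec_s, vec_0,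
      Int.cast_ofNat, Int.cast_zero, Int.cast_one]
    unfold TD.G2
    ring
  refine run_step (v := d.G1) ?_ ?_
  · simp only [ev_add, ev_sub, ev_mul, ev_pow, ev_k, ev_v, ev_r, nth_succ, nth_zero, vec_s, vec_0,
      Int.cast_ofNat, Int.cast_zero, Int.cast_one]
    unfold TD.G1
    ring
  refine run_step (v := d.G0) ?_ ?_
  · simp only [ev_add, ev_sub, ev_mul, ev_pow, ev_k, ev_v, ev_r, nth_succ, nth_zero, vec_s, vec_0,
      Int.cast_ofNat, Int.cast_zero, Int.cast_one]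
    unfold TD.G0
    ring
  refine run_step (v := d.D2) ?_ ?_
  · simp only [ev_add, ev_sub, ev_mul, ev_pow, ev_k, ev_v, ev_r, nth_succ, nth_zero, vec_s, vec_0,
      Int.cast_ofNat, Int.cast_zero, Int.cast_one]
    unfold TD.D2
    ring
  refine run_step (v := d.D1) ?_ ?_
  · simp only [ev_add, ev_sub, ev_mul, ev_pow, ev_k, ev_v, ev_r, nth_succ, nth_zero, vec_s, vec_0,
      Int.cast_ofNat, Int.cast_zero, Int.cast_one]
    unfold TD.D1
    ring
  refine run_step (v := d.D0) ?_ ?_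
  · simp only [ev_add, ev_sub, ev_mul, ev_pow, ev_k, ev_v, ev_r, nth_succ, nth_zero, vec_s, vec_0,
      Int.cast_ofNat, Int.cast_zero, Int.cast_one]
    unfold TD.D0
    ring
  refine run_step (v := (d.qc 0)) ?_ ?_
  · simp only [ev_add, ev_sub, ev_mul, ev_pow, ev_k, ev_v, ev_r, nth_succ, nth_zero, vec_s, vec_0,
      Int.cast_ofNat, Int.cast_zero, Int.cast_one]
    change _ = d.Q20 * d.D0 - 2 * d.l * (d.mu0 * d.G0) + d.l ^ 2 * (d.mu0 * d.c) ^ 2
    ring
  refine run_step (v := (d.qc 1)) ?_ ?_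
  · simp only [ev_add, ev_sub, ev_mul, ev_pow, ev_k, ev_v, ev_r, nth_succ, nth_zero, vec_s, vec_0,
      Int.cast_ofNat, Int.cast_zero, Int.cast_one]
    change _ = d.Q20 * d.D1 - 2 * d.l * (d.l * d.G0 + d.mu0 * d.G1) -
      2 * d.l ^ 2 * ((d.mu0 - d.l * d.c) * (d.mu0 * d.c))
    ring
  refine run_step (v := (d.qc 2)) ?_ ?_
  · simp only [ev_add, ev_sub, ev_mul, ev_pow, ev_k, ev_v, ev_r, nth_succ, nth_zero, vec_s, vec_0,
      Int.cast_ofNat, Int.cast_zero, Int.cast_one]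
    change _ = d.D0 + d.Q20 * d.D2 - 2 * d.l * (d.l * d.G1 + d.mu0 * d.G2) +
      d.l ^ 2 * ((d.mu0 - d.l * d.c) ^ 2 - 2 * d.l * (d.mu0 * d.c))
    ring
  refine run_step (v := (d.qc 3)) ?_ ?_
  · simp only [ev_add, ev_sub, ev_mul, ev_pow, ev_k, ev_v, ev_r, nth_succ, nth_zero, vec_s, vec_0,
      Int.cast_ofNat, Int.cast_zero, Int.cast_one]
    change _ = d.D1 - 2 * d.l * (d.l * d.G2 + d.mu0 * d.G3) + 2 * d.l ^ 3 * (d.mu0 - d.l * d.c)
    ring
  refine run_step (v := (d.qc 4)) ?_ ?_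
  · simp only [ev_add, ev_sub, ev_mul, ev_pow, ev_k, ev_v, ev_r, nth_succ, nth_zero, vec_s, vec_0,
      Int.cast_ofNat, Int.cast_zero, Int.cast_one]
    change _ = d.D2 - 2 * d.l ^ 2 * d.G3 + d.l ^ 4
    ring
  refine run_step (v := (d.l * (d.A + d.C) - d.al * Q0 + d.be * Q1)) ?_ ?_
  · simp only [ev_add, ev_sub, ev_mul, ev_pow, ev_k, ev_v, ev_r, nth_succ, nth_zero, vec_s, vec_0,
      Int.cast_ofNat, Int.cast_zero, Int.cast_one]
  exact run_nil _ _

end

/-! ### The tables -/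

/-- sums over the leaves -/
def Tt.sum {M : Type} [Add M] (F : ℕ → ℕ → ℕ → ℕ → ℕ → ℕ → ℕ → List ℤ → M) : Tt → M
  | .lf w i j a b d k cs => F w i j a b d k cs
  | .nd s t => s.sum F + t.sum F

/-- a test for the leaves -/
def Tt.all (F : ℕ → ℕ → ℕ → ℕ → List ℤ → Bool) : Tt → Bool
  | .lf w i j _ _ _ k cs => F w i j k cs
  | .nd s t => s.all F && t.all F

section

variable {A : Type} [CommRing A]

/-- the terms -/
def trm (N : ℕ) (al be l ka a c Q0 Q1 D W : A) (w i j q0 q1 d k : ℕ) (cs : List ℤ) : A :=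
  hor cs l * (al ^ (N + j - i) * be ^ (N + i - j)) * ka ^ k *
    (a ^ j * c ^ i * (Q0 ^ q0 * Q1 ^ q1 * D ^ d)) * W ^ w

theorem ev_e (N b w : ℕ) (L st : List A) (t : Tt) : ev (rg L) st (t.e N b w) =
    t.sum (trm N (vec L 0) (nth (rg L) st b) (vec L 1) (vec L 2) (vec L 3) (vec L 4) (vec L 5)
      (vec L 6) (vec L 7) (nth (rg L) st w)) := by
  induction t with
  | lf w' i j q0 q1 d k cs =>
    simp only [Tt.e, Tt.sum, trm, ev_mul, ev_pow, ev_hor, ev_v, ev_r]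
  | nd s t h1 h2 => simp only [Tt.e, Tt.sum, ev_add, h1, h2]

theorem run_postI {d : TD A} {ka Q0 Q1 D : A} (h : Gau d ka Q0 Q1 D) :
    ∃ l', run (rg [d.al, d.l, ka, d.A, d.C, Q0, Q1, D]) [] (pre ++ postI) =
      (qI d.qc - tI.sum (trm 4 d.al d.be d.l ka d.A d.C Q0 Q1 D
        (d.l * (d.A + d.C) - d.al * Q0 + d.be * Q1))) :: l' := by
  rw [run_append, run_pre h]
  unfold postI
  refine ⟨[(qI d.qc), (d.qc 2 ^ 2), (d.qc 3 * d.qc 1), (d.qc 4 * d.qc 0),
    (d.l * (d.A + d.C) - d.al * Q0 + d.be * Q1), (d.qc 4), (d.qc 3), (d.qc 2), (d.qc 1),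
    (d.qc 0), d.D0, d.D1, d.D2, d.G0, d.G1, d.G2, d.G3, d.K10, d.K11, d.K12, d.ze0,
    d.mu0, d.Y00, d.Y01, d.Y02, d.Y10, d.Y11, d.h1, d.h0, d.Q20, d.c, d.w0, d.kr, d.kp,
    d.rn, d.pn, d.e, d.be], ?_⟩
  refine run_step (v := (d.qc 4 * d.qc 0)) ?_ ?_
  · simp only [ev_add, ev_sub, ev_mul, ev_pow, ev_k, ev_v, ev_r, nth_succ, nth_zero, vec_s, vec_0,
      Int.cast_ofNat, Int.cast_zero, Int.cast_one]
  refine run_step (v := (d.qc 3 * d.qc 1)) ?_ ?_
  · simp only [ev_add, ev_sub, ev_mul, ev_pow, ev_k, ev_v, ev_r, nth_succ, nth_zero, vec_s, vec_0,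
      Int.cast_ofNat, Int.cast_zero, Int.cast_one]
  refine run_step (v := (d.qc 2 ^ 2)) ?_ ?_
  · simp only [ev_add, ev_sub, ev_mul, ev_pow, ev_k, ev_v, ev_r, nth_succ, nth_zero, vec_s, vec_0,
      Int.cast_ofNat, Int.cast_zero, Int.cast_one]
  refine run_step (v := (qI d.qc)) ?_ ?_
  · simp only [ev_add, ev_sub, ev_mul, ev_pow, ev_k, ev_v, ev_r, nth_succ, nth_zero, vec_s, vec_0,
      Int.cast_ofNat, Int.cast_zero, Int.cast_one]
    unfold qI
    ring
  refine run_step (v := _) ?_ (run_nil _ _)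
  rw [ev_sub, ev_e]
  simp only [ev_r, nth_succ, nth_zero, vec_s, vec_0]

theorem invI {d : TD A} {ka Q0 Q1 D : A} (h : Gau d ka Q0 Q1 D) : qI d.qc =
    tI.sum (trm 4 d.al d.be d.l ka d.A d.C Q0 Q1 D
      (d.l * (d.A + d.C) - d.al * Q0 + d.be * Q1)) := by
  obtain ⟨l', h1⟩ := chk8_sound chkI d.al d.l ka d.A d.C Q0 Q1 D
  obtain ⟨l'', h2⟩ := run_postI h
  rw [h2, List.cons.injEq] at h1
  exact sub_eq_zero.mp h1.1

theorem run_postJ {d : TD A} {ka Q0 Q1 D : A} (h : Gau d ka Q0 Q1 D) :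
    ∃ l', run (rg [d.al, d.l, ka, d.A, d.C, Q0, Q1, D]) [] (pre ++ postJ) =
      (qJ d.qc - tJ.sum (trm 6 d.al d.be d.l ka d.A d.C Q0 Q1 D
        (d.l * (d.A + d.C) - d.al * Q0 + d.be * Q1))) :: l' := by
  rw [run_append, run_pre h]
  unfold postJ
  refine ⟨[(qJ d.qc), (d.qc 3 * d.qc 0), (d.qc 4 * d.qc 1), (d.qc 2 ^ 2), (d.qc 3 * d.qc 1),
    (d.qc 4 * d.qc 0), (d.l * (d.A + d.C) - d.al * Q0 + d.be * Q1), (d.qc 4), (d.qc 3),
    (d.qc 2), (d.qc 1), (d.qc 0), d.D0, d.D1, d.D2, d.G0, d.G1, d.G2, d.G3, d.K10, d.K11,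
    d.K12, d.ze0, d.mu0, d.Y00, d.Y01, d.Y02, d.Y10, d.Y11, d.h1, d.h0, d.Q20, d.c, d.w0,
    d.kr, d.kp, d.rn, d.pn, d.e, d.be], ?_⟩
  refine run_step (v := (d.qc 4 * d.qc 0)) ?_ ?_
  · simp only [ev_add, ev_sub, ev_mul, ev_pow, ev_k, ev_v, ev_r, nth_succ, nth_zero, vec_s, vec_0,
      Int.cast_ofNat, Int.cast_zero, Int.cast_one]
  refine run_step (v := (d.qc 3 * d.qc 1)) ?_ ?_
  · simp only [ev_add, ev_sub, ev_mul, ev_pow, ev_k, ev_v, ev_r, nth_succ, nth_zero, vec_s, vec_0,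
      Int.cast_ofNat, Int.cast_zero, Int.cast_one]
  refine run_step (v := (d.qc 2 ^ 2)) ?_ ?_
  · simp only [ev_add, ev_sub, ev_mul, ev_pow, ev_k, ev_v, ev_r, nth_succ, nth_zero, vec_s, vec_0,
      Int.cast_ofNat, Int.cast_zero, Int.cast_one]
  refine run_step (v := (d.qc 4 * d.qc 1)) ?_ ?_
  · simp only [ev_add, ev_sub, ev_mul, ev_pow, ev_k, ev_v, ev_r, nth_succ, nth_zero, vec_s, vec_0,
      Int.cast_ofNat, Int.cast_zero, Int.cast_one]
  refine run_step (v := (d.qc 3 * d.qc 0)) ?_ ?_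
  · simp only [ev_add, ev_sub, ev_mul, ev_pow, ev_k, ev_v, ev_r, nth_succ, nth_zero, vec_s, vec_0,
      Int.cast_ofNat, Int.cast_zero, Int.cast_one]
  refine run_step (v := (qJ d.qc)) ?_ ?_
  · simp only [ev_add, ev_sub, ev_mul, ev_pow, ev_k, ev_v, ev_r, nth_succ, nth_zero, vec_s, vec_0,
      Int.cast_ofNat, Int.cast_zero, Int.cast_one]
    unfold qJ
    ring
  refine run_step (v := _) ?_ (run_nil _ _)
  rw [ev_sub, ev_e]
  simp only [ev_r, nth_succ, nth_zero, vec_s, vec_0]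

theorem invJ {d : TD A} {ka Q0 Q1 D : A} (h : Gau d ka Q0 Q1 D) : qJ d.qc =
    tJ.sum (trm 6 d.al d.be d.l ka d.A d.C Q0 Q1 D
      (d.l * (d.A + d.C) - d.al * Q0 + d.be * Q1)) := by
  obtain ⟨l', h1⟩ := chk8_sound chkJ d.al d.l ka d.A d.C Q0 Q1 D
  obtain ⟨l'', h2⟩ := run_postJ h
  rw [h2, List.cons.injEq] at h1
  exact sub_eq_zero.mp h1.1

end

end Vale.Agent.P297.H278
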