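import Vale.Agent.P297.H278.Z2.InvA
import Vale.Agent.P297.H10.Z2.TriInst
import Vale.Agent.P297.H521.Z2.NV4

/-!
The invariants of the quartics of the nodes of `T_l`: the interface.
-/

set_option linter.unusedSectionVars false
set_option linter.unusedVariables false

open Polynomial

namespace Vale.Agent.P297.Z2

open Vale.Agent.P297.G4 Vale.Agent.P297.H278
open Vale.Agent.P297.H160.Z2Irr

theorem Rl.nodeTD {R : Type} [CommRing R] {d : TD R} {P0 P1 P2 Q0 Q1 u v m n : R}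
    (h : Rl d P0 P1 P2 Q0 Q1 u v m n) : NodeTD P0 P1 P2 Q0 Q1 u v m n d where
  sub := by linear_combination h.l - h.e
  e := by linear_combination h.l
  hA := h.hA
  hC := h.hC
  pn := h.pn
  rn := h.rn
  kp := h.kp
  kr := h.kr
  w0 := h.w0
  cub := by linear_combination h.nod

/-- **[INV]** The invariants of the quartics of the nodes are polynomials in `l`. -/
theorem inv_ntd (P : Par) : ∃ p q : ℂ[X], p.natDegree ≤ 4 ∧ q.natDegree ≤ 6 ∧
    (∀ (N : Type) [Field N] [Algebra ℂ N] (l al be : N), IsNode P l al be →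
      qI (ntd P l al be).qc = (al * be) ^ 4 * aeval l p) ∧
    ∀ (N : Type) [Field N] [Algebra ℂ N] (l al be : N), IsNode P l al be →
      qJ (ntd P l al be).qc = (al * be) ^ 6 * aeval l q :=
  ⟨pI P.P0 P.P1 P.P2 P.Q0 P.Q1 P.u P.v P.m P.n, pJ P.P0 P.P1 P.P2 P.Q0 P.Q1 P.u P.v P.m P.n,
    natDegree_pI _ _ _ _ _ _ _ _ _, natDegree_pJ _ _ _ _ _ _ _ _ _,
    fun _ _ _ _ _ _ h => (inv_node h.rl.nodeTD).1, fun _ _ _ _ _ _ h => (inv_node h.rl.nodeTD).2⟩

/-- **The polynomials `p`, `q`**, in the form used for the three quartics. -/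
theorem exists_invPQ {P : Par} {l al be l' al' be' : ℂ}
    (T : NV.TwoNodes P l al be l' al' be') : ∃ p q : ℂ[X], InvPQ P p q := by
  obtain ⟨p, q, h1, h2, h3, h4⟩ := inv_ntd P
  exact ⟨p, q, h1, h2, T.disc_ne (h3 ℂ) (h4 ℂ), T.nt_ne (h3 ℂ) (h4 ℂ), h3, h4⟩

end Vale.Agent.P297.Z2
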