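import Vale.Agent.P297.H278.Z2.Nest

/-!
The programs and the tables of the two invariants of the quartics of the nodes.
-/

namespace Vale.Agent.P297.H278

open Vale.Agent.P297.H160 Vale.Agent.P297.H572

/-- Tables: a leaf `w i j a b d k cs` is the term `W ^ w P0 ^ i P2 ^ j Q0 ^ a Q1 ^ b D ^ d κ ^ k`
with the coefficient `cs` (a polynomial in `l`). -/
inductive Tt : Type
  | lf : ℕ → ℕ → ℕ → ℕ → ℕ → ℕ → ℕ → List ℤ → Tt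
  | nd : Tt → Tt → Tt

/-- The table as a program; `b` and `w` are the registers of `be` and `W`. -/
def Tt.e (N b w : ℕ) : Tt → E1
  | .lf w' i j a b' d k cs =>
    .mul (.mul (.mul (.mul (.hor cs (.v 1)) (.mul (.pow (.v 0) (N + j - i))
      (.pow (.r b) (N + i - j)))) (.pow (.v 2) k)) (.mul (.mul (.pow (.v 3) j) (.pow (.v 4) i))
      (.mul (.mul (.pow (.v 5) a) (.pow (.v 6) b')) (.pow (.v 7) d)))) (.pow (.r w) w')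
  | .nd s t => .add (s.e N b w) (t.e N b w)

def tI0 : Tt :=
  (.nd (.nd (.nd (.nd (.nd (.lf 0 0 0 0 0 4 0 [0, 0, 0, 0, 1]) (.lf 0 0 0 0 1 3 0 [0, 0, 0, -16,
  20])) (.nd (.lf 0 0 0 0 2 2 0 [0, 0, 16, -40, 30]) (.lf 0 0 0 0 3 1 0 [0, 0, 0, 8, -4]))) (.nd
  (.nd (.lf 0 0 0 0 4 0 0 [0, 0, 0, 0, 1]) (.lf 0 0 0 1 0 3 0 [0, 0, 0, 0, -4])) (.nd (.lf 0 0 0
  1 1 2 0 [0, 0, 24, -24, -12]) (.nd (.lf 0 0 0 1 2 1 0 [0, 0, -8, 8, -12]) (.lf 0 0 0 1 3 0 0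
  [0, 0, 0, -8, 4]))))) (.nd (.nd (.nd (.lf 0 0 0 2 0 2 0 [0, 0, 0, 0, 6]) (.lf 0 0 0 2 1 1 0 [0,
  0, -24, 48, -12])) (.nd (.lf 0 0 0 2 2 0 0 [0, 0, 16, -16, 6]) (.lf 0 0 0 3 0 1 0 [0, 0, 0, 0,
  -4]))) (.nd (.nd (.lf 0 0 0 3 1 0 0 [0, 0, 0, -8, 4]) (.lf 0 0 0 4 0 0 0 [0, 0, 0, 0, 1])) (.nd
  (.lf 0 0 0 0 0 2 1 [0, 0, 8, -16]) (.nd (.lf 0 0 0 0 1 1 1 [0, 32, -80, 56]) (.lf 0 0 0 0 2 0 1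
  [0, 0, 8, 8])))))) (.nd (.nd (.nd (.nd (.lf 0 0 0 1 0 1 1 [0, 0, 32, -40]) (.lf 0 0 0 1 1 0 1
  [0, 16, -64, 16])) (.nd (.lf 0 0 0 2 0 0 1 [0, 0, 8, 8]) (.lf 0 0 0 0 0 0 2 [16, -64, 64])))
  (.nd (.nd (.lf 0 0 1 0 0 3 0 [0, 0, 0, 40, -52]) (.lf 0 0 1 0 1 2 0 [0, 0, 16, -120, 84])) (.nd
  (.lf 0 0 1 0 2 1 0 [0, 0, 0, 8, -12]) (.nd (.lf 0 0 1 0 3 0 0 [0, 0, 0, 0, 4]) (.lf 0 0 1 1 0 2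
  0 [0, -192, 480, -296, 36]))))) (.nd (.nd (.nd (.lf 0 0 1 1 1 1 0 [0, 48, -112, 136, -48]) (.lf
  0 0 1 1 2 0 0 [0, 0, 24, -40, 12])) (.nd (.lf 0 0 1 2 0 1 0 [0, 48, -216, 184, -36]) (.nd (.lf
  0 0 1 2 1 0 0 [0, -48, 96, -64, 12]) (.lf 0 0 1 3 0 0 0 [0, 0, 24, -24, 4])))) (.nd (.nd (.lf 0
  0 1 0 0 1 1 [0, -32, 48, -16]) (.lf 0 0 1 0 1 0 1 [0, 0, -32, 40])) (.nd (.lf 0 0 1 1 0 0 1 [0,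
  192, -224, 40]) (.nd (.lf 0 0 2 0 0 2 0 [0, 0, 16, -32, 54]) (.lf 0 0 2 0 1 1 0 [0, 0, 0, -8,
  -12])))))))

def tI1 : Tt :=
  (.nd (.nd (.nd (.nd (.nd (.lf 0 0 2 0 2 0 0 [0, 0, 0, 0, 6]) (.lf 0 0 2 1 0 1 0 [0, 0, -96,
  104, -36])) (.nd (.lf 0 0 2 1 1 0 0 [0, 0, 24, -32, 12]) (.lf 0 0 2 2 0 0 0 [0, 0, 24, -24,
  6]))) (.nd (.nd (.lf 0 0 2 0 0 0 1 [0, 0, 8, 32]) (.lf 0 0 3 0 0 1 0 [0, 0, 0, -8, -4])) (.nd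
  (.lf 0 0 3 0 1 0 0 [0, 0, 0, 0, 4]) (.nd (.lf 0 0 3 1 0 0 0 [0, 0, 0, 0, 4]) (.lf 0 0 4 0 0 0 0
  [0, 0, 0, 0, 1]))))) (.nd (.nd (.nd (.lf 0 1 0 0 0 3 0 [0, 0, 0, 0, -4]) (.lf 0 1 0 0 1 2 0 [0,
  0, 0, 32, -36])) (.nd (.lf 0 1 0 0 2 1 0 [0, 0, 24, -32, 12]) (.lf 0 1 0 0 3 0 0 [0, 0, 24,
  -24, 4]))) (.nd (.nd (.lf 0 1 0 1 0 2 0 [0, 0, 0, 0, 12]) (.lf 0 1 0 1 1 1 0 [0, 0, -48, 56]))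
  (.nd (.lf 0 1 0 1 2 0 0 [0, -48, 96, -64, 12]) (.nd (.lf 0 1 0 2 0 1 0 [0, 0, 0, 0, -12]) (.lf
  0 1 0 2 1 0 0 [0, 0, 24, -40, 12])))))) (.nd (.nd (.nd (.nd (.lf 0 1 0 3 0 0 0 [0, 0, 0, 0, 4])
  (.lf 0 1 0 0 0 1 1 [0, 0, -16, -16])) (.nd (.lf 0 1 0 0 1 0 1 [0, 192, -224, 40]) (.lf 0 1 0 1
  0 0 1 [0, 0, -32, 40]))) (.nd (.nd (.lf 0 1 1 0 0 2 0 [0, 0, -64, 224, -132]) (.lf 0 1 1 0 1 1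
  0 [0, -256, 192, 40])) (.nd (.lf 0 1 1 0 2 0 0 [0, -48, 152, -152, 12]) (.nd (.lf 0 1 1 1 0 1 0
  [0, 384, -928, 552, -48]) (.lf 0 1 1 1 1 0 0 [192, -608, 816, -320, 24]))))) (.nd (.nd (.nd
  (.lf 0 1 1 2 0 0 0 [0, -48, 152, -152, 12]) (.lf 0 1 1 0 0 0 1 [-1024, 2304, -1264, 64])) (.nd
  (.lf 0 1 2 0 0 1 0 [0, 1024, -1664, 624, -12]) (.nd (.lf 0 1 2 0 1 0 0 [0, -192, 448, -256,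
  12]) (.lf 0 1 2 1 0 0 0 [0, -960, 1216, -256, 12])))) (.nd (.nd (.lf 0 1 3 0 0 0 0 [0, 0, -64,
  -128, 4]) (.lf 0 2 0 0 0 2 0 [0, 0, 0, 0, 6])) (.nd (.lf 0 2 0 0 1 1 0 [0, 0, 0, -16, 12]) (.nd
  (.lf 0 2 0 0 2 0 0 [0, 0, 24, -24, 6]) (.lf 0 2 0 1 0 1 0 [0, 0, 0, 0, -12])))))))

def tI2 : Tt :=
  (.nd (.nd (.nd (.nd (.nd (.lf 0 2 0 1 1 0 0 [0, 0, 24, -32, 12]) (.lf 0 2 0 2 0 0 0 [0, 0, 0,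
  0, 6])) (.nd (.lf 0 2 0 0 0 0 1 [0, 0, 8, 32]) (.lf 0 2 1 0 0 1 0 [0, 0, 128, -136, -12])))
  (.nd (.nd (.lf 0 2 1 0 1 0 0 [0, -960, 1216, -256, 12]) (.lf 0 2 1 1 0 0 0 [0, -192, 448, -256,
  12])) (.nd (.lf 0 2 2 0 0 0 0 [4096, -8192, 3968, -256, 6]) (.nd (.lf 0 3 0 0 0 1 0 [0, 0, 0,
  0, -4]) (.lf 0 3 0 0 1 0 0 [0, 0, 0, 0, 4]))))) (.nd (.nd (.nd (.lf 0 3 0 1 0 0 0 [0, 0, 0, 0,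
  4]) (.lf 0 3 1 0 0 0 0 [0, 0, -64, -128, 4])) (.nd (.lf 0 4 0 0 0 0 0 [0, 0, 0, 0, 1]) (.lf 1 0
  0 0 0 3 0 [0, 0, 0, 12]))) (.nd (.nd (.lf 1 0 0 0 1 2 0 [0, 0, -48, 52]) (.lf 1 0 0 0 2 1 0 [0,
  0, -8, 4])) (.nd (.lf 1 0 0 0 3 0 0 [0, 0, 0, 4]) (.nd (.lf 1 0 0 1 0 2 0 [0, 0, -24, 4]) (.lf
  1 0 0 1 1 1 0 [0, 24, -8, -16])))))) (.nd (.nd (.nd (.nd (.lf 1 0 0 1 2 0 0 [0, 0, -16, 12])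
  (.lf 1 0 0 2 0 1 0 [0, 0, 24, -20])) (.nd (.lf 1 0 0 2 1 0 0 [0, 0, -16, 12]) (.lf 1 0 0 3 0 0
  0 [0, 0, 0, 4]))) (.nd (.nd (.lf 1 0 0 0 0 1 1 [0, -48, 48]) (.lf 1 0 0 0 1 0 1 [0, -32, 40]))
  (.nd (.lf 1 0 0 1 0 0 1 [0, -32, 40]) (.nd (.lf 1 0 1 0 0 2 0 [0, 192, -288, 28]) (.lf 1 0 1 0
  1 1 0 [0, -48, 48, 8]))))) (.nd (.nd (.nd (.lf 1 0 1 0 2 0 0 [0, 0, -24, 12]) (.lf 1 0 1 1 0 1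
  0 [0, 48, 56, -40])) (.nd (.lf 1 0 1 1 1 0 0 [0, 72, -88, 24]) (.nd (.lf 1 0 1 2 0 0 0 [0, 24,
  -48, 12]) (.lf 1 0 1 0 0 0 1 [0, -176, 64])))) (.nd (.nd (.lf 1 0 2 0 0 1 0 [0, 0, 80, 4]) (.lf
  1 0 2 0 1 0 0 [0, 0, -24, 12])) (.nd (.lf 1 0 2 1 0 0 0 [0, 0, -24, 12]) (.nd (.lf 1 0 3 0 0 0
  0 [0, 0, 0, 4]) (.lf 1 1 0 0 0 2 0 [0, 0, 0, -20])))))))

def tI3 : Tt :=
  (.nd (.nd (.nd (.nd (.nd (.lf 1 1 0 0 1 1 0 [0, 0, -56, 32]) (.lf 1 1 0 0 2 0 0 [0, 24, -48,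
  12])) (.nd (.lf 1 1 0 1 0 1 0 [0, 0, 48, -16]) (.lf 1 1 0 1 1 0 0 [0, 72, -88, 24]))) (.nd (.nd
  (.lf 1 1 0 2 0 0 0 [0, 0, -24, 12]) (.lf 1 1 0 0 0 0 1 [0, -176, 64])) (.nd (.lf 1 1 1 0 0 1 0
  [0, 384, -304, 8]) (.nd (.lf 1 1 1 0 1 0 0 [-192, 448, -304, 24]) (.lf 1 1 1 1 0 0 0 [-192,
  448, -304, 24]))))) (.nd (.nd (.nd (.lf 1 1 2 0 0 0 0 [0, 640, -256, 12]) (.lf 1 2 0 0 0 1 0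
  [0, 0, 0, 4])) (.nd (.lf 1 2 0 0 1 0 0 [0, 0, -24, 12]) (.lf 1 2 0 1 0 0 0 [0, 0, -24, 12])))
  (.nd (.nd (.lf 1 2 1 0 0 0 0 [0, 640, -256, 12]) (.lf 1 3 0 0 0 0 0 [0, 0, 0, 4])) (.nd (.lf 2
  0 0 0 0 2 0 [0, 0, 38]) (.nd (.lf 2 0 0 0 1 1 0 [0, -16, 20]) (.lf 2 0 0 0 2 0 0 [0, 0,
  6])))))) (.nd (.nd (.nd (.nd (.lf 2 0 0 1 0 1 0 [0, -24, -4]) (.lf 2 0 0 1 1 0 0 [0, -8, 12]))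
  (.nd (.lf 2 0 0 2 0 0 0 [0, 0, 6]) (.lf 2 0 0 0 0 0 1 [8, 32]))) (.nd (.nd (.lf 2 0 1 0 0 1 0
  [0, -104, 20]) (.lf 2 0 1 0 1 0 0 [0, -24, 12])) (.nd (.lf 2 0 1 1 0 0 0 [0, -24, 12]) (.nd
  (.lf 2 0 2 0 0 0 0 [0, 0, 6]) (.lf 2 1 0 0 0 1 0 [0, 0, 20]))))) (.nd (.nd (.nd (.lf 2 1 0 0 1
  0 0 [0, -24, 12]) (.lf 2 1 0 1 0 0 0 [0, -24, 12])) (.nd (.lf 2 1 1 0 0 0 0 [-64, -128, 12])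
  (.nd (.lf 2 2 0 0 0 0 0 [0, 0, 6]) (.lf 3 0 0 0 0 1 0 [0, 12])))) (.nd (.nd (.lf 3 0 0 0 1 0 0
  [0, 4]) (.lf 3 0 0 1 0 0 0 [0, 4])) (.nd (.lf 3 0 1 0 0 0 0 [0, 4]) (.nd (.lf 3 1 0 0 0 0 0 [0,
  4]) (.lf 4 0 0 0 0 0 0 [1])))))))

/-- the table -/
def tI : Tt :=
  (.nd (.nd tI0 tI1) (.nd tI2 tI3))

def tJ0 : Tt :=
  (.nd (.nd (.nd (.nd (.nd (.lf 0 0 0 0 0 6 0 [0, 0, 0, 0, 0, 0, -2]) (.lf 0 0 0 0 1 5 0 [0, 0,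
  0, 0, 0, 48, -60])) (.nd (.lf 0 0 0 0 2 4 0 [0, 0, 0, 0, -240, 600, -390]) (.lf 0 0 0 0 3 3 0
  [0, 0, 0, -128, 480, -504, 112]))) (.nd (.nd (.lf 0 0 0 0 4 2 0 [0, 0, 0, 0, -96, 168, -102])
  (.lf 0 0 0 0 5 1 0 [0, 0, 0, 0, 0, -24, 12])) (.nd (.lf 0 0 0 0 6 0 0 [0, 0, 0, 0, 0, 0, -2])
  (.nd (.lf 0 0 0 1 0 5 0 [0, 0, 0, 0, 0, 0, 12]) (.lf 0 0 0 1 1 4 0 [0, 0, 0, 0, -72, -24,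
  156]))))) (.nd (.nd (.nd (.lf 0 0 0 1 2 3 0 [0, 0, 0, 576, -1560, 1128, -24]) (.lf 0 0 0 1 3 2
  0 [0, 0, 0, 96, -504, 720, -192])) (.nd (.lf 0 0 0 1 4 1 0 [0, 0, 0, 0, 120, -120, 60]) (.nd
  (.lf 0 0 0 1 5 0 0 [0, 0, 0, 0, 0, 24, -12]) (.lf 0 0 0 2 0 4 0 [0, 0, 0, 0, 0, 0, -30]))))
  (.nd (.nd (.lf 0 0 0 2 1 3 0 [0, 0, 0, 0, 216, -240, -96]) (.lf 0 0 0 2 2 2 0 [0, 0, -432,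
  1440, -1440, 360, -108])) (.nd (.lf 0 0 0 2 3 1 0 [0, 0, 0, -96, 216, -360, 120]) (.nd (.lf 0 0
  0 2 4 0 0 [0, 0, 0, 0, -96, 96, -30]) (.lf 0 0 0 3 0 3 0 [0, 0, 0, 0, 0, 0, 40])))))) (.nd (.nd
  (.nd (.nd (.lf 0 0 0 3 1 2 0 [0, 0, 0, 0, -216, 384, -48]) (.lf 0 0 0 3 2 1 0 [0, 0, 0, -288,
  744, -456, 120])) (.nd (.lf 0 0 0 3 3 0 0 [0, 0, 0, 128, -192, 144, -40]) (.lf 0 0 0 4 0 2 0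
  [0, 0, 0, 0, 0, 0, -30]))) (.nd (.nd (.lf 0 0 0 4 1 1 0 [0, 0, 0, 0, 72, -192, 60]) (.lf 0 0 0
  4 2 0 0 [0, 0, 0, 0, -96, 96, -30])) (.nd (.lf 0 0 0 5 0 1 0 [0, 0, 0, 0, 0, 0, 12]) (.nd (.lf
  0 0 0 5 1 0 0 [0, 0, 0, 0, 0, 24, -12]) (.lf 0 0 0 6 0 0 0 [0, 0, 0, 0, 0, 0, -2]))))) (.nd
  (.nd (.nd (.lf 0 0 0 0 0 4 1 [0, 0, 0, 0, -24, 48]) (.lf 0 0 0 0 1 3 1 [0, 0, 0, 96, -384,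
  312])) (.nd (.lf 0 0 0 0 2 2 1 [0, 0, -384, 1440, -1200, 72]) (.nd (.lf 0 0 0 0 3 1 1 [0, 0, 0,
  -192, 192, -120]) (.lf 0 0 0 0 4 0 1 [0, 0, 0, 0, -24, -24])))) (.nd (.nd (.lf 0 0 0 1 0 3 1
  [0, 0, 0, 0, -48, 24]) (.lf 0 0 0 1 1 2 1 [0, 0, 1440, -4752, 4752, -1296])) (.nd (.lf 0 0 0 1
  2 1 1 [0, 0, -96, -288, 816, -72]) (.nd (.lf 0 0 0 1 3 0 1 [0, 0, 0, 48, 240, -96]) (.lf 0 0 0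
  2 0 2 1 [0, 0, 0, 0, 144, -216])))))))

def tJ1 : Tt :=
  (.nd (.nd (.nd (.nd (.nd (.lf 0 0 0 2 1 1 1 [0, 0, 288, 288, -1152, 216]) (.lf 0 0 0 2 2 0 1
  [0, 0, 192, -864, 528, -144])) (.nd (.lf 0 0 0 3 0 1 1 [0, 0, 0, 0, -48, 168]) (.lf 0 0 0 3 1 0
  1 [0, 0, 0, 48, 240, -96]))) (.nd (.nd (.lf 0 0 0 4 0 0 1 [0, 0, 0, 0, -24, -24]) (.lf 0 0 0 0
  0 2 2 [0, 0, -96, 384, -384])) (.nd (.lf 0 0 0 0 1 1 2 [0, -384, 1728, -2592, 1344]) (.nd (.lf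
  0 0 0 0 2 0 2 [0, 0, -96, 96, -240]) (.lf 0 0 0 1 0 1 2 [0, 0, -384, 1248, -960]))))) (.nd (.nd
  (.nd (.lf 0 0 0 1 1 0 2 [0, -192, -576, 1728, -480]) (.lf 0 0 0 2 0 0 2 [0, 0, -96, 96, -240]))
  (.nd (.lf 0 0 0 0 0 0 3 [-128, 768, -1536, 1024]) (.nd (.lf 0 0 1 0 0 5 0 [0, 0, 0, 0, 0, -120,
  156]) (.lf 0 0 1 0 1 4 0 [0, 0, 0, 1728, -6000, 6552, -2148])))) (.nd (.nd (.lf 0 0 1 0 2 3 0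
  [0, 0, 0, -192, 1248, -1584, 696]) (.lf 0 0 1 0 3 2 0 [0, 0, 0, 0, -144, 696, -480])) (.nd (.lf
  0 0 1 0 4 1 0 [0, 0, 0, 0, 0, -72, 60]) (.nd (.lf 0 0 1 0 5 0 0 [0, 0, 0, 0, 0, 0, -12]) (.lf 0
  0 1 1 0 4 0 [0, 0, 0, -1152, 5472, -7512, 3036])))))) (.nd (.nd (.nd (.nd (.lf 0 0 1 1 1 3 0
  [0, 0, -1152, 1872, 1440, -4344, 1752]) (.lf 0 0 1 1 2 2 0 [0, 0, -576, 3552, -7368, 5040,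
  -1008])) (.nd (.lf 0 0 1 1 3 1 0 [0, 0, 0, -432, 912, -840, 312]) (.lf 0 0 1 1 4 0 0 [0, 0, 0,
  0, -72, 168, -60]))) (.nd (.nd (.lf 0 0 1 2 0 3 0 [0, 0, 0, -1296, 1800, 1008, -1248]) (.lf 0 0
  1 2 1 2 0 [0, 1728, -6336, 9936, -7488, 3528, -864])) (.nd (.lf 0 0 1 2 2 1 0 [0, 0, 288,
  -1488, 3576, -2736, 576]) (.nd (.lf 0 0 1 2 3 0 0 [0, 0, 0, 432, -912, 576, -120]) (.lf 0 0 1 3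
  0 2 0 [0, 0, 0, 864, -2808, 2064, -336]))))) (.nd (.nd (.nd (.lf 0 0 1 3 1 1 0 [0, 0, 1440,
  -5328, 5856, -2664, 456]) (.lf 0 0 1 3 2 0 0 [0, 0, -576, 1440, -1488, 720, -120])) (.nd (.lf 0
  0 1 4 0 1 0 [0, 0, 0, -144, 792, -696, 132]) (.nd (.lf 0 0 1 4 1 0 0 [0, 0, 0, 432, -720, 384,
  -60]) (.lf 0 0 1 5 0 0 0 [0, 0, 0, 0, -72, 72, -12])))) (.nd (.nd (.lf 0 0 1 0 0 3 1 [0, 0, 0,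
  -384, 1440, -1200]) (.lf 0 0 1 0 1 2 1 [0, 0, 192, -2400, 3888, -1512])) (.nd (.lf 0 0 1 0 2 1
  1 [0, 0, 0, 384, -192]) (.nd (.lf 0 0 1 0 3 0 1 [0, 0, 0, 0, 48, -168]) (.lf 0 0 1 1 0 2 1 [0,
  -4608, 17280, -19680, 4944, 1944])))))))

def tJ2 : Tt :=
  (.nd (.nd (.nd (.nd (.nd (.lf 0 0 1 1 1 1 1 [0, -576, 3840, -6336, 1632, 864]) (.lf 0 0 1 1 2 0
  1 [0, 0, -288, -1056, 1968, -504])) (.nd (.lf 0 0 1 2 0 1 1 [0, -576, -3168, 11136, -7872,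
  864]) (.lf 0 0 1 2 1 0 1 [0, -1152, 5184, -6240, 2832, -504]))) (.nd (.nd (.lf 0 0 1 3 0 0 1
  [0, 0, -288, -576, 912, -168]) (.lf 0 0 1 0 0 1 2 [0, 384, -1344, 1344, -384])) (.nd (.lf 0 0 1
  0 1 0 2 [0, 0, 384, 480, -768]) (.nd (.lf 0 0 1 1 0 0 2 [0, 4608, -13440, 9696, -768]) (.lf 0 0
  2 0 0 4 0 [0, 0, 0, 0, -1248, 3216, -2190]))))) (.nd (.nd (.nd (.lf 0 0 2 0 1 3 0 [0, 0, 0,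
  192, -768, -792, 1056]) (.lf 0 0 2 0 2 2 0 [0, 0, 0, 0, -96, 936, -828])) (.nd (.lf 0 0 2 0 3 1
  0 [0, 0, 0, 0, 0, -48, 120]) (.nd (.lf 0 0 2 0 4 0 0 [0, 0, 0, 0, 0, 0, -30]) (.lf 0 0 2 1 0 3
  0 [0, 0, 4608, -16128, 22080, -12600, 2640])))) (.nd (.nd (.lf 0 0 2 1 1 2 0 [0, 0, -1152,
  6432, -9936, 6552, -1440]) (.lf 0 0 2 1 2 1 0 [0, 0, 0, -288, 1176, -1584, 576])) (.nd (.lf 0 0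
  2 1 3 0 0 [0, 0, 0, 0, -216, 360, -120]) (.nd (.lf 0 0 2 2 0 2 0 [0, 0, -8064, 21312, -22056,
  9432, -1188]) (.lf 0 0 2 2 1 1 0 [0, 0, 2880, -8928, 9624, -4536, 792])))))) (.nd (.nd (.nd
  (.nd (.lf 0 0 2 2 2 0 0 [0, 0, -432, 1440, -1752, 936, -180]) (.lf 0 0 2 3 0 1 0 [0, 0, 3456,
  -7776, 6768, -2568, 336])) (.nd (.lf 0 0 2 3 1 0 0 [0, 0, -864, 2304, -2088, 792, -120]) (.lf 0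
  0 2 4 0 0 0 [0, 0, -432, 864, -648, 216, -30]))) (.nd (.nd (.lf 0 0 2 0 0 2 1 [0, 0, -384, 960,
  1776, -2448]) (.lf 0 0 2 0 1 1 1 [0, 0, 0, -384, -96, 360])) (.nd (.lf 0 0 2 0 2 0 1 [0, 0, 0,
  0, 144, -360]) (.nd (.lf 0 0 2 1 0 1 1 [0, 0, -3456, 8736, -6672, 1800]) (.lf 0 0 2 1 1 0 1 [0,
  0, 1440, -3696, 3216, -720]))))) (.nd (.nd (.nd (.lf 0 0 2 2 0 0 1 [0, 0, 1440, -3744, 2448,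
  -360]) (.lf 0 0 2 0 0 0 2 [0, 0, -96, -192, -960])) (.nd (.lf 0 0 3 0 0 3 0 [0, 0, 0, 128,
  -384, 288, 472]) (.nd (.lf 0 0 3 0 1 2 0 [0, 0, 0, 0, -144, 456, -624]) (.lf 0 0 3 0 2 1 0 [0,
  0, 0, 0, 0, 48, 120])))) (.nd (.nd (.lf 0 0 3 0 3 0 0 [0, 0, 0, 0, 0, 0, -40]) (.lf 0 0 3 1 0 2
  0 [0, 0, 0, -576, -768, 1368, -624])) (.nd (.lf 0 0 3 1 1 1 0 [0, 0, 0, 144, 672, -1128, 456])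
  (.nd (.lf 0 0 3 1 2 0 0 [0, 0, 0, 0, -216, 312, -120]) (.lf 0 0 3 2 0 1 0 [0, 0, 0, 144, 1080,
  -1296, 336])))))))

def tJ3 : Tt :=
  (.nd (.nd (.nd (.nd (.nd (.lf 0 0 3 2 1 0 0 [0, 0, 0, 144, -576, 528, -120]) (.lf 0 0 3 3 0 0 0
  [0, 0, 0, 0, -216, 216, -40])) (.nd (.lf 0 0 3 0 0 1 1 [0, 0, 0, 192, 288, 240]) (.lf 0 0 3 0 1
  0 1 [0, 0, 0, 0, 48, -312]))) (.nd (.nd (.lf 0 0 3 1 0 0 1 [0, 0, 0, -576, 624, -312]) (.lf 0 0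
  4 0 0 2 0 [0, 0, 0, 0, -96, 48, -174])) (.nd (.lf 0 0 4 0 1 1 0 [0, 0, 0, 0, 0, 72, 60]) (.nd
  (.lf 0 0 4 0 2 0 0 [0, 0, 0, 0, 0, 0, -30]) (.lf 0 0 4 1 0 1 0 [0, 0, 0, 0, 288, -264,
  132]))))) (.nd (.nd (.nd (.lf 0 0 4 1 1 0 0 [0, 0, 0, 0, -72, 96, -60]) (.lf 0 0 4 2 0 0 0 [0,
  0, 0, 0, -72, 72, -30])) (.nd (.lf 0 0 4 0 0 0 1 [0, 0, 0, 0, -24, -96]) (.nd (.lf 0 0 5 0 0 1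
  0 [0, 0, 0, 0, 0, 24, 12]) (.lf 0 0 5 0 1 0 0 [0, 0, 0, 0, 0, 0, -12])))) (.nd (.nd (.lf 0 0 5
  1 0 0 0 [0, 0, 0, 0, 0, 0, -12]) (.lf 0 0 6 0 0 0 0 [0, 0, 0, 0, 0, 0, -2])) (.nd (.lf 0 1 0 0
  0 5 0 [0, 0, 0, 0, 0, 0, 12]) (.nd (.lf 0 1 0 0 1 4 0 [0, 0, 0, 0, 0, -192, 228]) (.lf 0 1 0 0
  2 3 0 [0, 0, 0, 0, 408, -1008, 624])))))) (.nd (.nd (.nd (.nd (.lf 0 1 0 0 3 2 0 [0, 0, 0, 576,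
  -1272, 648, 24]) (.lf 0 1 0 0 4 1 0 [0, 0, 0, -288, 360, -96, -12])) (.nd (.lf 0 1 0 0 5 0 0
  [0, 0, 0, 0, -72, 72, -12]) (.lf 0 1 0 1 0 4 0 [0, 0, 0, 0, 0, 0, -60]))) (.nd (.nd (.lf 0 1 0
  1 1 3 0 [0, 0, 0, 0, 288, -24, -408]) (.lf 0 1 0 1 2 2 0 [0, 0, 0, -1008, 2736, -2016, 216]))
  (.nd (.lf 0 1 0 1 3 1 0 [0, 0, -288, 576, 96, -360, 24]) (.nd (.lf 0 1 0 1 4 0 0 [0, 0, 0, 432,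
  -720, 384, -60]) (.lf 0 1 0 2 0 3 0 [0, 0, 0, 0, 0, 0, 120]))))) (.nd (.nd (.nd (.lf 0 1 0 2 1
  2 0 [0, 0, 0, 0, -648, 792, 72]) (.lf 0 1 0 2 2 1 0 [0, 0, 864, -2880, 2952, -1008, 144])) (.nd
  (.lf 0 1 0 2 3 0 0 [0, 0, -576, 1440, -1488, 720, -120]) (.nd (.lf 0 1 0 3 0 2 0 [0, 0, 0, 0,
  0, 0, -120]) (.lf 0 1 0 3 1 1 0 [0, 0, 0, 0, 432, -744, 168])))) (.nd (.nd (.lf 0 1 0 3 2 0 0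
  [0, 0, 0, 432, -912, 576, -120]) (.lf 0 1 0 4 0 1 0 [0, 0, 0, 0, 0, 0, 60])) (.nd (.lf 0 1 0 4
  1 0 0 [0, 0, 0, 0, -72, 168, -60]) (.nd (.lf 0 1 0 5 0 0 0 [0, 0, 0, 0, 0, 0, -12]) (.lf 0 1 0
  0 0 3 1 [0, 0, 0, 0, 96, -48])))))))

def tJ4 : Tt :=
  (.nd (.nd (.nd (.nd (.nd (.lf 0 1 0 0 1 2 1 [0, 0, 0, -768, 240, 792]) (.lf 0 1 0 0 2 1 1 [0,
  0, 4320, -9024, 5088, -288])) (.nd (.lf 0 1 0 0 3 0 1 [0, 0, -288, -576, 912, -168]) (.lf 0 1 0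
  1 0 2 1 [0, 0, 0, 0, 144, -360]))) (.nd (.nd (.lf 0 1 0 1 1 1 1 [0, 0, -2880, 8448, -6240,
  288]) (.lf 0 1 0 1 2 0 1 [0, -1152, 5184, -6240, 2832, -504])) (.nd (.lf 0 1 0 2 0 1 1 [0, 0,
  0, 0, -288, 576]) (.nd (.lf 0 1 0 2 1 0 1 [0, 0, -288, -1056, 1968, -504]) (.lf 0 1 0 3 0 0 1
  [0, 0, 0, 0, 48, -168]))))) (.nd (.nd (.nd (.lf 0 1 0 0 0 1 2 [0, 0, 192, -192, -384]) (.lf 0 1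
  0 0 1 0 2 [0, 4608, -13440, 9696, -768])) (.nd (.lf 0 1 0 1 0 0 2 [0, 0, 384, 480, -768]) (.nd
  (.lf 0 1 1 0 0 4 0 [0, 0, 0, 0, 192, -432, 84]) (.lf 0 1 1 0 1 3 0 [0, 0, 0, -4224, 13728,
  -10968, 1320])))) (.nd (.nd (.lf 0 1 1 0 2 2 0 [0, 0, -384, 1200, -4152, 3528, 72]) (.lf 0 1 1
  0 3 1 0 [0, 0, 576, -1056, 1872, -1080, 24])) (.nd (.lf 0 1 1 0 4 0 0 [0, 0, 0, 144, -600, 600,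
  -60]) (.nd (.lf 0 1 1 1 0 3 0 [0, 0, 0, 4608, -15456, 14952, -3576]) (.lf 0 1 1 1 1 2 0 [0, 0,
  -8064, 21888, -19104, 4464, 864])))))) (.nd (.nd (.nd (.nd (.lf 0 1 1 1 2 1 0 [0, 1152, 1920,
  -9888, 11424, -6120, 504]) (.lf 0 1 1 1 3 0 0 [0, 0, -2016, 5952, -6912, 2688, -240])) (.nd
  (.lf 0 1 1 2 0 2 0 [0, 0, 0, 3888, -6552, 2520, -360]) (.lf 0 1 1 2 1 1 0 [0, -3456, 16128,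
  -33408, 30144, -9720, 936]))) (.nd (.nd (.lf 0 1 1 2 2 0 0 [0, 2304, -10176, 17760, -12816,
  4176, -360]) (.lf 0 1 1 3 0 1 0 [0, 0, 0, -1728, 5136, -3816, 456])) (.nd (.lf 0 1 1 3 1 0 0
  [0, 0, -2016, 5952, -6912, 2688, -240]) (.nd (.lf 0 1 1 4 0 0 0 [0, 0, 0, 144, -600, 600, -60])
  (.lf 0 1 1 0 0 2 1 [0, 0, -3072, 16320, -20640, 6624]))))) (.nd (.nd (.nd (.lf 0 1 1 0 1 1 1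
  [0, -12288, 22272, -7584, -2112, -432]) (.lf 0 1 1 0 2 0 1 [0, 576, 3552, -10656, 7968, -720]))
  (.nd (.lf 0 1 1 1 0 1 1 [0, 9216, -36480, 43296, -17568, 2448]) (.nd (.lf 0 1 1 1 1 0 1 [4608,
  -23424, 53184, -51936, 17184, -1440]) (.lf 0 1 1 2 0 0 1 [0, 576, 3552, -10656, 7968, -720]))))
  (.nd (.nd (.lf 0 1 1 0 0 0 2 [-15360, 58368, -67776, 24192, -1920]) (.lf 0 1 2 0 0 3 0 [0, 0,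
  0, -6144, 11904, -4992, -168])) (.nd (.lf 0 1 2 0 1 2 0 [0, 0, 3072, 4416, -19392, 9648, 72])
  (.nd (.lf 0 1 2 0 2 1 0 [0, 0, 1728, -6528, 10344, -4464, 144]) (.lf 0 1 2 0 3 0 0 [0, 0, 0,
  864, -2328, 1752, -120])))))))

def tJ5 : Tt :=
  (.nd (.nd (.nd (.nd (.nd (.lf 0 1 2 1 0 2 0 [0, 36864, -138240, 184512, -100896, 18576, -216])
  (.lf 0 1 2 1 1 1 0 [0, -13824, 40704, -60384, 51552, -18648, 936])) (.nd (.lf 0 1 2 1 2 0 0 [0,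
  1728, -9792, 22704, -20400, 5760, -360]) (.lf 0 1 2 2 0 1 0 [0, -9216, 60480, -110688, 72528,
  -14112, 792]))) (.nd (.nd (.lf 0 1 2 2 1 0 0 [0, 12672, -43776, 52800, -27672, 5976, -360])
  (.lf 0 1 2 3 0 0 0 [0, 1728, -6336, 12384, -9456, 1968, -120])) (.nd (.lf 0 1 2 0 0 1 1 [0,
  30720, -86016, 84864, -28512, 720]) (.nd (.lf 0 1 2 0 1 0 1 [0, -4608, 19200, -30528, 16080,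
  -936]) (.lf 0 1 2 1 0 0 1 [0, -59904, 148224, -104832, 16656, -936]))))) (.nd (.nd (.nd (.lf 0
  1 3 0 0 2 0 [0, 0, -15360, 36864, -34368, 12816, 24]) (.lf 0 1 3 0 1 1 0 [0, 0, 4608, -17664,
  17088, -6072, 168])) (.nd (.lf 0 1 3 0 2 0 0 [0, 0, 0, 1296, -2952, 2376, -120]) (.nd (.lf 0 1
  3 1 0 1 0 [0, 0, 41472, -74496, 44832, -12888, 456]) (.lf 0 1 3 1 1 0 0 [0, 0, -10368, 24096,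
  -18336, 4992, -240])))) (.nd (.nd (.lf 0 1 3 2 0 0 0 [0, 0, -11520, 22032, -12312, 2520, -120])
  (.lf 0 1 3 0 0 0 1 [0, 0, -3072, -2304, 9888, -384])) (.nd (.lf 0 1 4 0 0 1 0 [0, 0, 0, 3072,
  3072, -2592, 60]) (.nd (.lf 0 1 4 0 1 0 0 [0, 0, 0, -1152, -960, 1536, -60]) (.lf 0 1 4 1 0 0 0
  [0, 0, 0, 1152, -3264, 1536, -60])))))) (.nd (.nd (.nd (.nd (.lf 0 1 5 0 0 0 0 [0, 0, 0, 0,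
  192, 384, -12]) (.lf 0 2 0 0 0 4 0 [0, 0, 0, 0, 0, 0, -30])) (.nd (.lf 0 2 0 0 1 3 0 [0, 0, 0,
  0, 0, 288, -312]) (.lf 0 2 0 0 2 2 0 [0, 0, 0, 0, -168, 288, -108]))) (.nd (.nd (.lf 0 2 0 0 3
  1 0 [0, 0, 0, 576, -1296, 792, -96]) (.lf 0 2 0 0 4 0 0 [0, 0, -432, 864, -648, 216, -30]))
  (.nd (.lf 0 2 0 1 0 3 0 [0, 0, 0, 0, 0, 0, 120]) (.nd (.lf 0 2 0 1 1 2 0 [0, 0, 0, 0, -432,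
  216, 288]) (.lf 0 2 0 1 2 1 0 [0, 0, 0, 288, -600, 360, -72]))))) (.nd (.nd (.nd (.lf 0 2 0 1 3
  0 0 [0, 0, -864, 2304, -2088, 792, -120]) (.lf 0 2 0 2 0 2 0 [0, 0, 0, 0, 0, 0, -180])) (.nd
  (.lf 0 2 0 2 1 1 0 [0, 0, 0, 0, 648, -864, 144]) (.nd (.lf 0 2 0 2 2 0 0 [0, 0, -432, 1440,
  -1752, 936, -180]) (.lf 0 2 0 3 0 1 0 [0, 0, 0, 0, 0, 0, 120])))) (.nd (.nd (.lf 0 2 0 3 1 0 0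
  [0, 0, 0, 0, -216, 360, -120]) (.lf 0 2 0 4 0 0 0 [0, 0, 0, 0, 0, 0, -30])) (.nd (.lf 0 2 0 0 0
  2 1 [0, 0, 0, 0, -144, -144]) (.nd (.lf 0 2 0 0 1 1 1 [0, 0, 0, 1248, -480, -792]) (.lf 0 2 0 0
  2 0 1 [0, 0, 1440, -3744, 2448, -360])))))))

def tJ6 : Tt :=
  (.nd (.nd (.nd (.nd (.nd (.lf 0 2 0 1 0 1 1 [0, 0, 0, 0, -144, 648]) (.lf 0 2 0 1 1 0 1 [0, 0,
  1440, -3696, 3216, -720])) (.nd (.lf 0 2 0 2 0 0 1 [0, 0, 0, 0, 144, -360]) (.lf 0 2 0 0 0 0 2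
  [0, 0, -96, -192, -960]))) (.nd (.nd (.lf 0 2 1 0 0 3 0 [0, 0, 0, 0, -768, 1632, -600]) (.lf 0
  2 1 0 1 2 0 [0, 0, 0, 4416, -2352, -4824, 864])) (.nd (.lf 0 2 1 0 2 1 0 [0, 0, -17280, 31296,
  -16464, 2448, -72]) (.nd (.lf 0 2 1 0 3 0 0 [0, 1728, -6336, 12384, -9456, 1968, -120]) (.lf 0
  2 1 1 0 2 0 [0, 0, 0, -6912, 13536, -5832, 288]))))) (.nd (.nd (.nd (.lf 0 2 1 1 1 1 0 [0, 0,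
  19584, -47856, 34272, -3960, 504]) (.lf 0 2 1 1 2 0 0 [0, 12672, -43776, 52800, -27672, 5976,
  -360])) (.nd (.lf 0 2 1 2 0 1 0 [0, 0, 0, -3888, 7704, -5904, 576]) (.nd (.lf 0 2 1 2 1 0 0 [0,
  1728, -9792, 22704, -20400, 5760, -360]) (.lf 0 2 1 3 0 0 0 [0, 0, 0, 864, -2328, 1752,
  -120])))) (.nd (.nd (.lf 0 2 1 0 0 1 1 [0, 0, 6144, -13632, 8160, 720]) (.lf 0 2 1 0 1 0 1 [0,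
  -59904, 148224, -104832, 16656, -936])) (.nd (.lf 0 2 1 1 0 0 1 [0, -4608, 19200, -30528,
  16080, -936]) (.nd (.lf 0 2 2 0 0 2 0 [0, 0, 12288, -58368, 71328, -25200, 540]) (.lf 0 2 2 0 1
  1 0 [0, 49152, -62976, -14592, 27264, -3096, 144])))))) (.nd (.nd (.nd (.nd (.lf 0 2 2 0 2 0 0
  [0, 9216, -45312, 72480, -39768, 4824, -180]) (.lf 0 2 2 1 0 1 0 [0, -73728, 256512, -297216,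
  127968, -15768, 576])) (.nd (.lf 0 2 2 1 1 0 0 [-36864, 153600, -284928, 244800, -85680, 9792,
  -360]) (.lf 0 2 2 2 0 0 0 [0, 9216, -45312, 72480, -39768, 4824, -180]))) (.nd (.nd (.lf 0 2 2
  0 0 0 1 [196608, -638976, 681984, -250368, 19824, -576]) (.lf 0 2 3 0 0 1 0 [0, -196608,
  516096, -436224, 128256, -5616, 120])) (.nd (.lf 0 2 3 0 1 0 0 [0, 36864, -122880, 134016,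
  -54336, 4608, -120]) (.nd (.lf 0 2 3 1 0 0 0 [0, 184320, -417792, 283776, -56640, 4608, -120])
  (.lf 0 2 4 0 0 0 0 [0, 0, 12288, 12288, -23808, 1536, -30]))))) (.nd (.nd (.nd (.lf 0 3 0 0 0 3
  0 [0, 0, 0, 0, 0, 0, 40]) (.lf 0 3 0 0 1 2 0 [0, 0, 0, 0, 0, -192, 168])) (.nd (.lf 0 3 0 0 2 1
  0 [0, 0, 0, 0, 72, 48, -96]) (.nd (.lf 0 3 0 0 3 0 0 [0, 0, 0, 0, -216, 216, -40]) (.lf 0 3 0 1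
  0 2 0 [0, 0, 0, 0, 0, 0, -120])))) (.nd (.nd (.lf 0 3 0 1 1 1 0 [0, 0, 0, 0, 288, -264, 24])
  (.lf 0 3 0 1 2 0 0 [0, 0, 0, 144, -576, 528, -120])) (.nd (.lf 0 3 0 2 0 1 0 [0, 0, 0, 0, 0, 0,
  120]) (.nd (.lf 0 3 0 2 1 0 0 [0, 0, 0, 0, -216, 312, -120]) (.lf 0 3 0 3 0 0 0 [0, 0, 0, 0, 0,
  0, -40])))))))

def tJ7 : Tt :=
  (.nd (.nd (.nd (.nd (.nd (.lf 0 3 0 0 0 1 1 [0, 0, 0, 0, 96, 240]) (.lf 0 3 0 0 1 0 1 [0, 0, 0,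
  -576, 624, -312])) (.nd (.lf 0 3 0 1 0 0 1 [0, 0, 0, 0, 48, -312]) (.lf 0 3 1 0 0 2 0 [0, 0, 0,
  0, 1152, -1104, 312]))) (.nd (.nd (.lf 0 3 1 0 1 1 0 [0, 0, 0, -3072, -2112, 3096, 24]) (.lf 0
  3 1 0 2 0 0 [0, 0, -11520, 22032, -12312, 2520, -120])) (.nd (.lf 0 3 1 1 0 1 0 [0, 0, 0, 4608,
  -2592, -3144, 312]) (.nd (.lf 0 3 1 1 1 0 0 [0, 0, -10368, 24096, -18336, 4992, -240]) (.lf 0 3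
  1 2 0 0 0 [0, 0, 0, 1296, -2952, 2376, -120]))))) (.nd (.nd (.nd (.lf 0 3 1 0 0 0 1 [0, 0,
  -3072, -2304, 9888, -384]) (.lf 0 3 2 0 0 1 0 [0, 0, -24576, 52224, -23040, -3360, 120])) (.nd
  (.lf 0 3 2 0 1 0 0 [0, 184320, -417792, 283776, -56640, 4608, -120]) (.nd (.lf 0 3 2 1 0 0 0
  [0, 36864, -122880, 134016, -54336, 4608, -120]) (.lf 0 3 3 0 0 0 0 [-524288, 1572864,
  -1548288, 548864, -48000, 2304, -40])))) (.nd (.nd (.lf 0 4 0 0 0 2 0 [0, 0, 0, 0, 0, 0, -30])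
  (.lf 0 4 0 0 1 1 0 [0, 0, 0, 0, 0, 48, -12])) (.nd (.lf 0 4 0 0 2 0 0 [0, 0, 0, 0, -72, 72,
  -30]) (.nd (.lf 0 4 0 1 0 1 0 [0, 0, 0, 0, 0, 0, 60]) (.lf 0 4 0 1 1 0 0 [0, 0, 0, 0, -72, 96,
  -60])))))) (.nd (.nd (.nd (.nd (.lf 0 4 0 2 0 0 0 [0, 0, 0, 0, 0, 0, -30]) (.lf 0 4 0 0 0 0 1
  [0, 0, 0, 0, -24, -96])) (.nd (.lf 0 4 1 0 0 1 0 [0, 0, 0, 0, -768, -360, 60]) (.nd (.lf 0 4 1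
  0 1 0 0 [0, 0, 0, 1152, -3264, 1536, -60]) (.lf 0 4 1 1 0 0 0 [0, 0, 0, -1152, -960, 1536,
  -60])))) (.nd (.nd (.lf 0 4 2 0 0 0 0 [0, 0, 12288, 12288, -23808, 1536, -30]) (.lf 0 5 0 0 0 1
  0 [0, 0, 0, 0, 0, 0, 12])) (.nd (.lf 0 5 0 0 1 0 0 [0, 0, 0, 0, 0, 0, -12]) (.nd (.lf 0 5 0 1 0
  0 0 [0, 0, 0, 0, 0, 0, -12]) (.lf 0 5 1 0 0 0 0 [0, 0, 0, 0, 192, 384, -12]))))) (.nd (.nd (.nd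
  (.lf 0 6 0 0 0 0 0 [0, 0, 0, 0, 0, 0, -2]) (.lf 1 0 0 0 0 5 0 [0, 0, 0, 0, 0, -36])) (.nd (.lf
  1 0 0 0 1 4 0 [0, 0, 0, 0, 432, -516]) (.nd (.lf 1 0 0 0 2 3 0 [0, 0, 0, -288, 552, -312]) (.lf
  1 0 0 0 3 2 0 [0, 0, 0, 96, 192, -288])))) (.nd (.nd (.lf 1 0 0 0 4 1 0 [0, 0, 0, 0, -24, 12])
  (.lf 1 0 0 0 5 0 0 [0, 0, 0, 0, 0, -12])) (.nd (.lf 1 0 0 1 0 4 0 [0, 0, 0, 0, 72, 60]) (.nd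
  (.lf 1 0 0 1 1 3 0 [0, 0, 0, -1080, 1560, -264]) (.lf 1 0 0 1 2 2 0 [0, 0, 576, -1776, 1704,
  -432])))))))

def tJ8 : Tt :=
  (.nd (.nd (.nd (.nd (.nd (.lf 1 0 0 1 3 1 0 [0, 0, 0, -120, 24, 120]) (.lf 1 0 0 1 4 0 0 [0, 0,
  0, 0, 96, -60])) (.nd (.lf 1 0 0 2 0 3 0 [0, 0, 0, 0, -216, 48]) (.lf 1 0 0 2 1 2 0 [0, 0, 864,
  -1872, 1152, -288]))) (.nd (.nd (.lf 1 0 0 2 2 1 0 [0, 0, 288, -48, -528, 288]) (.lf 1 0 0 2 3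
  0 0 [0, 0, 0, -192, 288, -120])) (.nd (.lf 1 0 0 3 0 2 0 [0, 0, 0, 0, 216, -144]) (.nd (.lf 1 0
  0 3 1 1 0 [0, 0, 0, 360, -648, 264]) (.lf 1 0 0 3 2 0 0 [0, 0, 0, -192, 288, -120]))))) (.nd
  (.nd (.nd (.lf 1 0 0 4 0 1 0 [0, 0, 0, 0, -72, 84]) (.lf 1 0 0 4 1 0 0 [0, 0, 0, 0, 96, -60]))
  (.nd (.lf 1 0 0 5 0 0 0 [0, 0, 0, 0, 0, -12]) (.nd (.lf 1 0 0 0 0 3 1 [0, 0, 0, 0, 144]) (.lf 1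
  0 0 0 1 2 1 [0, 0, -576, 912, -744])))) (.nd (.nd (.lf 1 0 0 0 2 1 1 [0, 0, 480, 96, -384])
  (.lf 1 0 0 0 3 0 1 [0, 0, 0, 48, -168])) (.nd (.lf 1 0 0 1 0 2 1 [0, 0, -1440, 3504, -1896])
  (.nd (.lf 1 0 0 1 1 1 1 [0, -288, -384, 576, 96]) (.lf 1 0 0 1 2 0 1 [0, 0, -480, 1104,
  -504])))))) (.nd (.nd (.nd (.nd (.lf 1 0 0 2 0 1 1 [0, 0, -288, -384, 480]) (.lf 1 0 0 2 1 0 1
  [0, 0, -480, 1104, -504])) (.nd (.lf 1 0 0 3 0 0 1 [0, 0, 0, 48, -168]) (.lf 1 0 0 0 0 1 2 [0,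
  576, -1728, 1152]))) (.nd (.nd (.lf 1 0 0 0 1 0 2 [0, 384, 480, -768]) (.lf 1 0 0 1 0 0 2 [0,
  384, 480, -768])) (.nd (.lf 1 0 1 0 0 4 0 [0, 0, 0, -576, 144, 852]) (.nd (.lf 1 0 1 0 1 3 0
  [0, 0, 1152, -3600, 3600, -768]) (.lf 1 0 1 0 2 2 0 [0, 0, 576, -2688, 3144, -936]))))) (.nd
  (.nd (.nd (.lf 1 0 1 0 3 1 0 [0, 0, 0, 432, -336, 48]) (.lf 1 0 1 0 4 0 0 [0, 0, 0, 0, 72,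
  -60])) (.nd (.lf 1 0 1 1 0 3 0 [0, 0, 3456, -4464, -1848, 1824]) (.nd (.lf 1 0 1 1 1 2 0 [0,
  -3456, 10944, -13080, 5784, -864]) (.lf 1 0 1 1 2 1 0 [0, 0, 0, 432, -1320, 576])))) (.nd (.nd
  (.lf 1 0 1 1 3 0 0 [0, 0, 0, -648, 792, -240]) (.lf 1 0 1 2 0 2 0 [0, -1728, 3744, -1656, 1536,
  -1080])) (.nd (.lf 1 0 1 2 1 1 0 [0, -1728, 1440, 3648, -3984, 1008]) (.nd (.lf 1 0 1 2 2 0 0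
  [0, 0, 1152, -2280, 1656, -360]) (.lf 1 0 1 3 0 1 0 [0, 0, -1152, 2592, -2136, 480])))))))

def tJ9 : Tt :=
  (.nd (.nd (.nd (.nd (.nd (.lf 1 0 1 3 1 0 0 [0, 0, 576, -1656, 1224, -240]) (.lf 1 0 1 4 0 0 0
  [0, 0, 0, -216, 288, -60])) (.nd (.lf 1 0 1 0 0 2 1 [0, 4608, -13248, 10848, -1824]) (.lf 1 0 1
  0 1 1 1 [0, 576, -3456, 4128, -624]))) (.nd (.nd (.lf 1 0 1 0 2 0 1 [0, 0, 288, 1152, -720])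
  (.lf 1 0 1 1 0 1 1 [0, 6336, -10272, 192, 2256])) (.nd (.lf 1 0 1 1 1 0 1 [0, 2592, -7680,
  5856, -1440]) (.nd (.lf 1 0 1 2 0 0 1 [0, 1440, -3456, 3456, -720]) (.lf 1 0 1 0 0 0 2 [0,
  -4800, 8832, -1920]))))) (.nd (.nd (.nd (.lf 1 0 2 0 0 3 0 [0, 0, -4608, 11520, -7968, -456])
  (.lf 1 0 2 0 1 2 0 [0, 0, 1152, -5568, 5496, -1008])) (.nd (.lf 1 0 2 0 2 1 0 [0, 0, 0, 288,
  -792, 72]) (.nd (.lf 1 0 2 0 3 0 0 [0, 0, 0, 0, 216, -120]) (.lf 1 0 2 1 0 2 0 [0, 0, 10368,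
  -15168, 7392, -432])))) (.nd (.nd (.lf 1 0 2 1 1 1 0 [0, 0, -4608, 7608, -3576, 792]) (.lf 1 0
  2 1 2 0 0 [0, 0, 864, -1872, 1368, -360])) (.nd (.lf 1 0 2 2 0 1 0 [0, 0, -5184, 6768, -3240,
  720]) (.nd (.lf 1 0 2 2 1 0 0 [0, 0, 2016, -3456, 1800, -360]) (.lf 1 0 2 3 0 0 0 [0, 0, 864,
  -1296, 648, -120])))))) (.nd (.nd (.nd (.nd (.lf 1 0 2 0 0 1 1 [0, 0, 3840, -5184, -240]) (.lf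
  1 0 2 0 1 0 1 [0, 0, -1440, 2448, -936])) (.nd (.lf 1 0 2 1 0 0 1 [0, 0, -2592, 3600, -936])
  (.lf 1 0 3 0 0 2 0 [0, 0, 0, 384, 1680, -360]))) (.nd (.nd (.lf 1 0 3 0 1 1 0 [0, 0, 0, -144,
  -672, 48]) (.lf 1 0 3 0 2 0 0 [0, 0, 0, 0, 216, -120])) (.nd (.lf 1 0 3 1 0 1 0 [0, 0, 0, 144,
  -1368, 336]) (.nd (.lf 1 0 3 1 1 0 0 [0, 0, 0, -360, 744, -240]) (.lf 1 0 3 2 0 0 0 [0, 0, 0,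
  -216, 432, -120]))))) (.nd (.nd (.nd (.lf 1 0 3 0 0 0 1 [0, 0, 0, 480, -384]) (.lf 1 0 4 0 0 1
  0 [0, 0, 0, 0, -192, 12])) (.nd (.lf 1 0 4 0 1 0 0 [0, 0, 0, 0, 72, -60]) (.nd (.lf 1 0 4 1 0 0
  0 [0, 0, 0, 0, 72, -60]) (.lf 1 0 5 0 0 0 0 [0, 0, 0, 0, 0, -12])))) (.nd (.nd (.lf 1 1 0 0 0 4
  0 [0, 0, 0, 0, 0, 132]) (.lf 1 1 0 0 1 3 0 [0, 0, 0, 0, -600, 744])) (.nd (.lf 1 1 0 0 2 2 0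
  [0, 0, 0, -1560, 2112, -360]) (.nd (.lf 1 1 0 0 3 1 0 [0, 0, 576, -720, 504, -168]) (.lf 1 1 0
  0 4 0 0 [0, 0, 0, -216, 288, -60])))))))

def tJ10 : Tt :=
  (.nd (.nd (.nd (.nd (.nd (.lf 1 1 0 1 0 3 0 [0, 0, 0, 0, -288, -120]) (.lf 1 1 0 1 1 2 0 [0, 0,
  0, 1800, -2760, 576])) (.nd (.lf 1 1 0 1 2 1 0 [0, 0, 864, -912, -240, -72]) (.lf 1 1 0 1 3 0 0
  [0, 0, 576, -1656, 1224, -240]))) (.nd (.nd (.lf 1 1 0 2 0 2 0 [0, 0, 0, 0, 648, -216]) (.lf 1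
  1 0 2 1 1 0 [0, 0, -1728, 3744, -2040, 360])) (.nd (.lf 1 1 0 2 2 0 0 [0, 0, 1152, -2280, 1656,
  -360]) (.nd (.lf 1 1 0 3 0 1 0 [0, 0, 0, 0, -432, 264]) (.lf 1 1 0 3 1 0 0 [0, 0, 0, -648, 792,
  -240]))))) (.nd (.nd (.nd (.lf 1 1 0 4 0 0 0 [0, 0, 0, 0, 72, -60]) (.lf 1 1 0 0 0 2 1 [0, 0,
  0, 480, 480])) (.nd (.lf 1 1 0 0 1 1 1 [0, 0, -7584, 9504, -1776]) (.nd (.lf 1 1 0 0 2 0 1 [0,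
  1440, -3456, 3456, -720]) (.lf 1 1 0 1 0 1 1 [0, 0, 2880, -5952, 1104])))) (.nd (.nd (.lf 1 1 0
  1 1 0 1 [0, 2592, -7680, 5856, -1440]) (.lf 1 1 0 2 0 0 1 [0, 0, 288, 1152, -720])) (.nd (.lf 1
  1 0 0 0 0 2 [0, -4800, 8832, -1920]) (.nd (.lf 1 1 1 0 0 3 0 [0, 0, 0, 1152, -5088, 2832]) (.lf
  1 1 1 0 1 2 0 [0, 0, 10368, -12384, 3264, 144])))))) (.nd (.nd (.nd (.nd (.lf 1 1 1 0 2 1 0 [0,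
  -1152, -2688, 720, 2256, -288]) (.lf 1 1 1 0 3 0 0 [0, 0, 1728, -3408, 2400, -240])) (.nd (.lf
  1 1 1 1 0 2 0 [0, 0, 1152, -4704, 3312, 720]) (.lf 1 1 1 1 1 1 0 [0, -2304, 768, 8016, -6960,
  720]))) (.nd (.nd (.lf 1 1 1 1 2 0 0 [0, -3456, 13920, -17808, 7776, -720]) (.lf 1 1 1 2 0 1 0
  [0, 3456, -10944, 15312, -9264, 1008])) (.nd (.lf 1 1 1 2 1 0 0 [0, -3456, 13920, -17808, 7776,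
  -720]) (.nd (.lf 1 1 1 3 0 0 0 [0, 0, 1728, -3408, 2400, -240]) (.lf 1 1 1 0 0 1 1 [0, 18432,
  -28416, 7680, -480]))))) (.nd (.nd (.nd (.lf 1 1 1 0 1 0 1 [-4608, 19200, -33984, 21408,
  -1872]) (.lf 1 1 1 1 0 0 1 [-4608, 19200, -33984, 21408, -1872])) (.nd (.lf 1 1 2 0 0 2 0 [0,
  -36864, 82944, -43200, -2016, 504]) (.nd (.lf 1 1 2 0 1 1 0 [0, 13824, -26496, 13920, -1608,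
  -72]) (.lf 1 1 2 0 2 0 0 [0, -1728, 7200, -12888, 5472, -360])))) (.nd (.nd (.lf 1 1 2 1 0 1 0
  [0, -4608, -8832, 31392, -14928, 792]) (.lf 1 1 2 1 1 0 0 [0, -21888, 55104, -41784, 11448,
  -720])) (.nd (.lf 1 1 2 2 0 0 0 [0, -13248, 27936, -22320, 5688, -360]) (.nd (.lf 1 1 2 0 0 0 1
  [0, 49152, -78336, 21408, -1152]) (.lf 1 1 3 0 0 1 0 [0, 0, -30720, 29184, -2496, 48])))))))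

def tJ11 : Tt :=
  (.nd (.nd (.nd (.nd (.nd (.lf 1 1 3 0 1 0 0 [0, 0, 8064, -12096, 4896, -240]) (.lf 1 1 3 1 0 0
  0 [0, 0, 12672, -16704, 4896, -240])) (.nd (.lf 1 1 4 0 0 0 0 [0, 0, 0, -1536, 1536, -60]) (.lf
  1 2 0 0 0 3 0 [0, 0, 0, 0, 0, -168]))) (.nd (.nd (.lf 1 2 0 0 1 2 0 [0, 0, 0, 0, -24]) (.lf 1 2
  0 0 2 1 0 [0, 0, 0, -1008, 1512, -360])) (.nd (.lf 1 2 0 0 3 0 0 [0, 0, 864, -1296, 648, -120])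
  (.nd (.lf 1 2 0 1 0 2 0 [0, 0, 0, 0, 432]) (.lf 1 2 0 1 1 1 0 [0, 0, 0, -360, 456, -72])))))
  (.nd (.nd (.nd (.lf 1 2 0 1 2 0 0 [0, 0, 2016, -3456, 1800, -360]) (.lf 1 2 0 2 0 1 0 [0, 0, 0,
  0, -648, 288])) (.nd (.lf 1 2 0 2 1 0 0 [0, 0, 864, -1872, 1368, -360]) (.nd (.lf 1 2 0 3 0 0 0
  [0, 0, 0, 0, 216, -120]) (.lf 1 2 0 0 0 1 1 [0, 0, 0, -960, -240])))) (.nd (.nd (.lf 1 2 0 0 1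
  0 1 [0, 0, -2592, 3600, -936]) (.lf 1 2 0 1 0 0 1 [0, 0, -1440, 2448, -936])) (.nd (.lf 1 2 1 0
  0 2 0 [0, 0, 0, -2112, 912, 936]) (.nd (.lf 1 2 1 0 1 1 0 [0, 0, 34176, -42000, 8400, -288])
  (.lf 1 2 1 0 2 0 0 [0, -13248, 27936, -22320, 5688, -360])))))) (.nd (.nd (.nd (.nd (.lf 1 2 1
  1 0 1 0 [0, 0, -12672, 21264, -4632, 576]) (.lf 1 2 1 1 1 0 0 [0, -21888, 55104, -41784, 11448,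
  -720])) (.nd (.lf 1 2 1 2 0 0 0 [0, -1728, 7200, -12888, 5472, -360]) (.lf 1 2 1 0 0 0 1 [0,
  49152, -78336, 21408, -1152]))) (.nd (.nd (.lf 1 2 2 0 0 1 0 [0, -73728, 116736, -41472, 192,
  72]) (.lf 1 2 2 0 1 0 0 [36864, -122880, 155904, -77952, 9648, -360])) (.nd (.lf 1 2 2 1 0 0 0
  [36864, -122880, 155904, -77952, 9648, -360]) (.nd (.lf 1 2 3 0 0 0 0 [0, -122880, 172032,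
  -53760, 4608, -120]) (.lf 1 3 0 0 0 2 0 [0, 0, 0, 0, 0, 72]))))) (.nd (.nd (.nd (.lf 1 3 0 0 1
  1 0 [0, 0, 0, 0, 120, -168]) (.lf 1 3 0 0 2 0 0 [0, 0, 0, -216, 432, -120])) (.nd (.lf 1 3 0 1
  0 1 0 [0, 0, 0, 0, -288, 120]) (.nd (.lf 1 3 0 1 1 0 0 [0, 0, 0, -360, 744, -240]) (.lf 1 3 0 2
  0 0 0 [0, 0, 0, 0, 216, -120])))) (.nd (.nd (.lf 1 3 0 0 0 0 1 [0, 0, 0, 480, -384]) (.lf 1 3 1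
  0 0 1 0 [0, 0, 0, 3072, 2496, 48])) (.nd (.lf 1 3 1 0 1 0 0 [0, 0, 12672, -16704, 4896, -240])
  (.nd (.lf 1 3 1 1 0 0 0 [0, 0, 8064, -12096, 4896, -240]) (.lf 1 3 2 0 0 0 0 [0, -122880,
  172032, -53760, 4608, -120])))))))

def tJ12 : Tt :=
  (.nd (.nd (.nd (.nd (.nd (.lf 1 4 0 0 0 1 0 [0, 0, 0, 0, 0, 12]) (.lf 1 4 0 0 1 0 0 [0, 0, 0,
  0, 72, -60])) (.nd (.lf 1 4 0 1 0 0 0 [0, 0, 0, 0, 72, -60]) (.lf 1 4 1 0 0 0 0 [0, 0, 0,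
  -1536, 1536, -60]))) (.nd (.nd (.lf 1 5 0 0 0 0 0 [0, 0, 0, 0, 0, -12]) (.lf 2 0 0 0 0 4 0 [0,
  0, 0, 0, -222])) (.nd (.lf 2 0 0 0 1 3 0 [0, 0, 0, 960, -1056]) (.nd (.lf 2 0 0 0 2 2 0 [0, 0,
  -240, 456, -492]) (.lf 2 0 0 0 3 1 0 [0, 0, 0, 72, -72]))))) (.nd (.nd (.nd (.lf 2 0 0 0 4 0 0
  [0, 0, 0, 0, -30]) (.lf 2 0 0 1 0 3 0 [0, 0, 0, 504, -48])) (.nd (.lf 2 0 0 1 1 2 0 [0, 0,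
  -1080, 1584, -192]) (.nd (.lf 2 0 0 1 2 1 0 [0, 0, -312, 480]) (.lf 2 0 0 1 3 0 0 [0, 0, 0,
  144, -120])))) (.nd (.nd (.lf 2 0 0 2 0 2 0 [0, 0, -432, 432, -276]) (.lf 2 0 0 2 1 1 0 [0, 0,
  -360, -96, 216])) (.nd (.lf 2 0 0 2 2 0 0 [0, 0, -96, 288, -180]) (.nd (.lf 2 0 0 3 0 1 0 [0,
  0, 0, -72, 144]) (.lf 2 0 0 3 1 0 0 [0, 0, 0, 144, -120])))))) (.nd (.nd (.nd (.nd (.lf 2 0 0 4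
  0 0 0 [0, 0, 0, 0, -30]) (.lf 2 0 0 0 0 2 1 [0, 0, 816, -912])) (.nd (.lf 2 0 0 0 1 1 1 [0, 96,
  192, -984]) (.lf 2 0 0 0 2 0 1 [0, 0, 144, -360]))) (.nd (.nd (.lf 2 0 0 1 0 1 1 [0, 288, 528,
  456]) (.lf 2 0 0 1 1 0 1 [0, 48, 912, -720])) (.nd (.lf 2 0 0 2 0 0 1 [0, 0, 144, -360]) (.nd
  (.lf 2 0 0 0 0 0 2 [-96, -192, -960]) (.lf 2 0 1 0 0 3 0 [0, 0, -3456, 5376, -408]))))) (.nd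
  (.nd (.nd (.lf 2 0 1 0 1 2 0 [0, 1728, -4560, 4320, -912]) (.lf 2 0 1 0 2 1 0 [0, 0, -288, 432,
  -216])) (.nd (.lf 2 0 1 0 3 0 0 [0, 0, 0, 216, -120]) (.nd (.lf 2 0 1 1 0 2 0 [0, 2304, -5472,
  768, 240]) (.lf 2 0 1 1 1 1 0 [0, 3312, -3792, 264, 216])))) (.nd (.nd (.lf 2 0 1 1 2 0 0 [0,
  0, -792, 1152, -360]) (.lf 2 0 1 2 0 1 0 [0, 1584, -936, -720, 432])) (.nd (.lf 2 0 1 2 1 0 0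
  [0, 144, -1152, 1368, -360]) (.nd (.lf 2 0 1 3 0 0 0 [0, 0, -216, 432, -120]) (.lf 2 0 1 0 0 1
  1 [0, -5568, 8352, -1200])))))))

def tJ13 : Tt :=
  (.nd (.nd (.nd (.nd (.nd (.lf 2 0 1 0 1 0 1 [0, -1440, 2448, -936]) (.lf 2 0 1 1 0 0 1 [0,
  -2016, 3024, -936])) (.nd (.lf 2 0 2 0 0 2 0 [0, 0, -2400, -240, -420]) (.lf 2 0 2 0 1 1 0 [0,
  0, 1728, 216, -216]))) (.nd (.nd (.lf 2 0 2 0 2 0 0 [0, 0, -432, 432, -180]) (.lf 2 0 2 1 0 1 0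
  [0, 0, 1440, -144, 216])) (.nd (.lf 2 0 2 1 1 0 0 [0, 0, -1368, 1224, -360]) (.nd (.lf 2 0 2 2
  0 0 0 [0, 0, -648, 648, -180]) (.lf 2 0 2 0 0 0 1 [0, 0, 1008, -576]))))) (.nd (.nd (.nd (.lf 2
  0 3 0 0 1 0 [0, 0, 0, -144, -72]) (.lf 2 0 3 0 1 0 0 [0, 0, 0, 216, -120])) (.nd (.lf 2 0 3 1 0
  0 0 [0, 0, 0, 216, -120]) (.nd (.lf 2 0 4 0 0 0 0 [0, 0, 0, 0, -30]) (.lf 2 1 0 0 0 3 0 [0, 0,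
  0, 0, 312])))) (.nd (.nd (.lf 2 1 0 0 1 2 0 [0, 0, 0, 1176, -696]) (.lf 2 1 0 0 2 1 0 [0, 0,
  -1080, 1296, -432])) (.nd (.lf 2 1 0 0 3 0 0 [0, 0, -216, 432, -120]) (.nd (.lf 2 1 0 1 0 2 0
  [0, 0, 0, -792, 168]) (.lf 2 1 0 1 1 1 0 [0, 0, -1008, 552, -216])))))) (.nd (.nd (.nd (.nd
  (.lf 2 1 0 1 2 0 0 [0, 144, -1152, 1368, -360]) (.lf 2 1 0 2 0 1 0 [0, 0, 864, -864, 216]))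
  (.nd (.lf 2 1 0 2 1 0 0 [0, 0, -792, 1152, -360]) (.lf 2 1 0 3 0 0 0 [0, 0, 0, 216, -120])))
  (.nd (.nd (.lf 2 1 0 0 0 1 1 [0, 0, 3552, -1200]) (.lf 2 1 0 0 1 0 1 [0, -2016, 3024, -936]))
  (.nd (.lf 2 1 0 1 0 0 1 [0, -1440, 2448, -936]) (.nd (.lf 2 1 1 0 0 2 0 [0, 0, -7680, 6288,
  168]) (.lf 2 1 1 0 1 1 0 [0, 2688, -5760, 6888, -648]))))) (.nd (.nd (.nd (.lf 2 1 1 0 2 0 0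
  [0, 1296, -3960, 3384, -360]) (.lf 2 1 1 1 0 1 0 [0, 3456, -6816, 120, 216])) (.nd (.lf 2 1 1 1
  1 0 0 [1152, 3360, -11568, 7056, -720]) (.nd (.lf 2 1 1 2 0 0 0 [0, 1296, -3960, 3384, -360])
  (.lf 2 1 1 0 0 0 1 [-3072, -2304, 12000, -1152])))) (.nd (.nd (.lf 2 1 2 0 0 1 0 [0, 21504,
  -29184, 3936, -216]) (.lf 2 1 2 0 1 0 0 [0, 8064, -12096, 5256, -360])) (.nd (.lf 2 1 2 1 0 0 0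
  [0, 10368, -14400, 5256, -360]) (.nd (.lf 2 1 3 0 0 0 0 [0, 0, -3456, 2304, -120]) (.lf 2 2 0 0
  0 2 0 [0, 0, 0, 0, 12])))))))

def tJ14 : Tt :=
  (.nd (.nd (.nd (.nd (.nd (.lf 2 2 0 0 1 1 0 [0, 0, 0, 720, -432]) (.lf 2 2 0 0 2 0 0 [0, 0,
  -648, 648, -180])) (.nd (.lf 2 2 0 1 0 1 0 [0, 0, 0, 72]) (.lf 2 2 0 1 1 0 0 [0, 0, -1368,
  1224, -360]))) (.nd (.nd (.lf 2 2 0 2 0 0 0 [0, 0, -432, 432, -180]) (.lf 2 2 0 0 0 0 1 [0, 0,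
  1008, -576])) (.nd (.lf 2 2 1 0 0 1 0 [0, 0, -14592, 6384, -216]) (.nd (.lf 2 2 1 0 1 0 0 [0,
  10368, -14400, 5256, -360]) (.lf 2 2 1 1 0 0 0 [0, 8064, -12096, 5256, -360]))))) (.nd (.nd
  (.nd (.lf 2 2 2 0 0 0 0 [12288, 12288, -31488, 4608, -180]) (.lf 2 3 0 0 0 1 0 [0, 0, 0, 0,
  -72])) (.nd (.lf 2 3 0 0 1 0 0 [0, 0, 0, 216, -120]) (.nd (.lf 2 3 0 1 0 0 0 [0, 0, 0, 216,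
  -120]) (.lf 2 3 1 0 0 0 0 [0, 0, -3456, 2304, -120])))) (.nd (.nd (.lf 2 4 0 0 0 0 0 [0, 0, 0,
  0, -30]) (.lf 3 0 0 0 0 3 0 [0, 0, 0, -504])) (.nd (.lf 3 0 0 0 1 2 0 [0, 0, 432, -528]) (.nd
  (.lf 3 0 0 0 2 1 0 [0, 0, 120, -168]) (.lf 3 0 0 0 3 0 0 [0, 0, 0, -40])))))) (.nd (.nd (.nd
  (.nd (.lf 3 0 0 1 0 2 0 [0, 0, 504, 48]) (.lf 3 0 0 1 1 1 0 [0, -72, 408, -120])) (.nd (.lf 3 0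
  0 1 2 0 0 [0, 0, 96, -120]) (.lf 3 0 0 2 0 1 0 [0, 0, 72, 48]))) (.nd (.nd (.lf 3 0 0 2 1 0 0
  [0, 0, 96, -120]) (.lf 3 0 0 3 0 0 0 [0, 0, 0, -40])) (.nd (.lf 3 0 0 0 0 1 1 [0, 0, -720])
  (.nd (.lf 3 0 0 0 1 0 1 [0, 48, -312]) (.lf 3 0 0 1 0 0 1 [0, 48, -312]))))) (.nd (.nd (.nd
  (.lf 3 0 1 0 0 2 0 [0, -576, 2736, -456]) (.lf 3 0 1 0 1 1 0 [0, -1584, 1008, -336])) (.nd (.lf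
  3 0 1 0 2 0 0 [0, 0, 216, -120]) (.nd (.lf 3 0 1 1 0 1 0 [0, -1872, 1032, -48]) (.lf 3 0 1 1 1
  0 0 [0, -216, 600, -240])))) (.nd (.nd (.lf 3 0 1 2 0 0 0 [0, -72, 288, -120]) (.lf 3 0 1 0 0 0
  1 [0, 480, -384])) (.nd (.lf 3 0 2 0 0 1 0 [0, 0, 384, -168]) (.nd (.lf 3 0 2 0 1 0 0 [0, 0,
  216, -120]) (.lf 3 0 2 1 0 0 0 [0, 0, 216, -120])))))))

def tJ15 : Tt :=
  (.nd (.nd (.nd (.nd (.nd (.lf 3 0 3 0 0 0 0 [0, 0, 0, -40]) (.lf 3 1 0 0 0 2 0 [0, 0, 0,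
  -312])) (.nd (.lf 3 1 0 0 1 1 0 [0, 0, 696, -408]) (.lf 3 1 0 0 2 0 0 [0, -72, 288, -120])))
  (.nd (.nd (.lf 3 1 0 1 0 1 0 [0, 0, 432, -120]) (.lf 3 1 0 1 1 0 0 [0, -216, 600, -240])) (.nd
  (.lf 3 1 0 2 0 0 0 [0, 0, 216, -120]) (.nd (.lf 3 1 0 0 0 0 1 [0, 480, -384]) (.lf 3 1 1 0 0 1
  0 [0, 0, 3840, -336]))))) (.nd (.nd (.nd (.lf 3 1 1 0 1 0 0 [-1152, -960, 1968, -240]) (.lf 3 1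
  1 1 0 0 0 [-1152, -960, 1968, -240])) (.nd (.lf 3 1 2 0 0 0 0 [0, -1536, 1536, -120]) (.nd (.lf
  3 2 0 0 0 1 0 [0, 0, 0, -168]) (.lf 3 2 0 0 1 0 0 [0, 0, 216, -120])))) (.nd (.nd (.lf 3 2 0 1
  0 0 0 [0, 0, 216, -120]) (.lf 3 2 1 0 0 0 0 [0, -1536, 1536, -120])) (.nd (.lf 3 3 0 0 0 0 0
  [0, 0, 0, -40]) (.nd (.lf 4 0 0 0 0 2 0 [0, 0, -222]) (.lf 4 0 0 0 1 1 0 [0, 48, -132]))))))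
  (.nd (.nd (.nd (.nd (.lf 4 0 0 0 2 0 0 [0, 0, -30]) (.lf 4 0 0 1 0 1 0 [0, 72, -60])) (.nd (.lf
  4 0 0 1 1 0 0 [0, 24, -60]) (.nd (.lf 4 0 0 2 0 0 0 [0, 0, -30]) (.lf 4 0 0 0 0 0 1 [-24,
  -96])))) (.nd (.nd (.lf 4 0 1 0 0 1 0 [0, 312, -132]) (.lf 4 0 1 0 1 0 0 [0, 72, -60])) (.nd
  (.lf 4 0 1 1 0 0 0 [0, 72, -60]) (.nd (.lf 4 0 2 0 0 0 0 [0, 0, -30]) (.lf 4 1 0 0 0 1 0 [0, 0,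
  -132]))))) (.nd (.nd (.nd (.lf 4 1 0 0 1 0 0 [0, 72, -60]) (.lf 4 1 0 1 0 0 0 [0, 72, -60]))
  (.nd (.lf 4 1 1 0 0 0 0 [192, 384, -60]) (.nd (.lf 4 2 0 0 0 0 0 [0, 0, -30]) (.lf 5 0 0 0 0 1
  0 [0, -36])))) (.nd (.nd (.lf 5 0 0 0 1 0 0 [0, -12]) (.lf 5 0 0 1 0 0 0 [0, -12])) (.nd (.lf 5
  0 1 0 0 0 0 [0, -12]) (.nd (.lf 5 1 0 0 0 0 0 [0, -12]) (.lf 6 0 0 0 0 0 0 [-2])))))))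

/-- the table -/
def tJ : Tt :=
  (.nd (.nd (.nd (.nd tJ0 tJ1) (.nd tJ2 tJ3)) (.nd (.nd tJ4 tJ5) (.nd tJ6 tJ7))) (.nd (.nd (.nd
  tJ8 tJ9) (.nd tJ10 tJ11)) (.nd (.nd tJ12 tJ13) (.nd tJ14 tJ15))))

/-- the common part of the programs -/
def pre : List E1 := [
  .add (.v 0) (.sub (.k 1) (.v 1)) /- be -/,
  .sub (.k 1) (.v 1) /- e -/,
  .sub (.mul (.v 0) (.v 7)) (.v 4) /- pn -/,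
  .sub (.k 0) (.v 3) /- rn -/,
  .add (.mul (.mul (.v 0) (.r 3)) (.sub (.v 5) (.mul (.v 1) (.v 7)))) (.mul (.mul (.v 1) (.r
    2)) (.v 3)) /- kp -/,
  .add (.mul (.mul (.v 0) (.r 4)) (.sub (.v 6) (.mul (.v 1) (.v 7)))) (.mul (.mul (.v 1) (.r
    3)) (.v 4)) /- kr -/,
  .sub (.sub (.mul (.mul (.mul (.mul (.k 2) (.v 1)) (.r 4)) (.v 3)) (.v 4)) (.mul (.mul (.v 0)
    (.r 5)) (.v 2))) (.mul (.mul (.mul (.mul (.v 1) (.v 0)) (.sub (.mul (.k 2) (.r 5)) (.v 0)))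
    (.v 3)) (.v 7)) /- w0 -/,
  .add (.mul (.r 6) (.r 4)) (.mul (.v 0) (.r 3)) /- c -/,
  .sub (.k 0) (.mul (.mul (.mul (.mul (.k 4) (.v 0)) (.r 7)) (.v 3)) (.v 4)) /- Q20 -/,
  .add (.mul (.r 8) (.v 3)) (.mul (.v 0) (.v 4)) /- h0 -/,
  .add (.mul (.v 0) (.v 3)) (.mul (.r 9) (.v 4)) /- h1 -/,
  .sub (.k 0) (.mul (.v 1) (.add (.v 0) (.r 10))) /- Y11 -/,
  .sub (.add (.sub (.sub (.k 0) (.mul (.mul (.mul (.mul (.k 2) (.v 1)) (.v 0)) (.r 11)) (.add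
    (.v 3) (.v 4)))) (.mul (.mul (.mul (.mul (.k 2) (.r 10)) (.v 0)) (.r 11)) (.add (.r 9) (.r
    8)))) (.mul (.v 0) (.r 7))) (.mul (.r 11) (.r 6)) /- Y10 -/,
  .add (.r 11) (.mul (.k 2) (.v 1)) /- Y02 -/,
  .sub (.add (.mul (.mul (.k 2) (.v 1)) (.sub (.r 4) (.r 6))) (.r 8)) (.r 9) /- Y01 -/,
  .sub (.sub (.sub (.sub (.sub (.mul (.r 13) (.r 6)) (.mul (.mul (.mul (.k 2) (.v 1)) (.r 7))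
    (.r 5))) (.mul (.mul (.mul (.r 13) (.v 0)) (.r 14)) (.pow (.add (.r 12) (.r 11)) 2))) (.mul
    (.r 10) (.sub (.mul (.r 13) (.r 12)) (.r 7)))) (.mul (.r 9) (.add (.mul (.r 13) (.r 11)) (.r
    7)))) (.mul (.r 13) (.r 8)) /- Y00 -/,
  .sub (.add (.mul (.v 1) (.r 6)) (.r 10)) (.r 11) /- mu0 -/,
  .sub (.sub (.sub (.sub (.r 8) (.mul (.mul (.v 0) (.r 16)) (.pow (.add (.r 14) (.r 13)) 2)))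
    (.mul (.r 12) (.r 14))) (.mul (.r 11) (.r 13))) (.r 10) /- ze0 -/,
  .sub (.k 0) (.mul (.v 1) (.r 16)) /- K12 -/,
  .sub (.sub (.sub (.k 0) (.mul (.mul (.mul (.mul (.k 2) (.v 0)) (.r 18)) (.add (.r 16) (.r
    15))) (.add (.v 0) (.r 18)))) (.mul (.v 0) (.r 14))) (.mul (.r 18) (.r 13)) /- K11 -/,
  .sub (.sub (.sub (.k 0) (.mul (.mul (.v 1) (.r 18)) (.r 11))) (.mul (.mul (.mul (.k 4) (.pow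
    (.mul (.v 0) (.r 19)) 2)) (.add (.r 17) (.r 16))) (.add (.v 3) (.v 4)))) (.mul (.mul (.mul
    (.k 2) (.v 0)) (.r 19)) (.add (.mul (.v 4) (.r 15)) (.mul (.v 3) (.r 14)))) /- K10 -/,
  .sub (.k 0) (.mul (.v 1) (.r 19)) /- G3 -/,
  .sub (.add (.sub (.r 2) (.mul (.r 14) (.r 3))) (.mul (.mul (.mul (.k 2) (.v 0)) (.r 21)) (.r
    11))) (.mul (.mul (.mul (.k 2) (.v 0)) (.r 21)) (.sub (.r 12) (.mul (.k 2) (.r 14)))) /- G2 -/,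
  .sub (.add (.sub (.r 2) (.mul (.r 15) (.r 3))) (.mul (.mul (.mul (.k 2) (.v 0)) (.r 22)) (.r
    5))) (.mul (.mul (.mul (.k 2) (.v 0)) (.r 22)) (.sub (.pow (.r 15) 2) (.mul (.mul (.k 2) (.r
    15)) (.r 13)))) /- G1 -/,
  .sub (.add (.sub (.k 0) (.mul (.r 16) (.r 3))) (.mul (.mul (.mul (.mul (.k 2) (.v 0)) (.r
    23)) (.r 13)) (.r 6))) (.mul (.mul (.mul (.mul (.k 2) (.v 0)) (.r 23)) (.r 14)) (.pow (.r 16)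
    2)) /- G0 -/,
  .add (.pow (.r 13) 2) (.mul (.mul (.mul (.mul (.k 4) (.r 23)) (.v 0)) (.r 24)) (.r 11)) /- D2 -/,
  .add (.mul (.mul (.k 2) (.r 14)) (.r 13)) (.mul (.mul (.mul (.mul (.k 4) (.r 24)) (.v 0)) (.r
    25)) (.r 11)) /- D1 -/,
  .add (.pow (.r 14) 2) (.mul (.mul (.mul (.mul (.k 4) (.r 25)) (.v 0)) (.r 26)) (.r 11)) /- D0 -/,
  .add (.sub (.mul (.r 19) (.r 0)) (.mul (.mul (.k 2) (.v 1)) (.mul (.r 11) (.r 3)))) (.mul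
    (.pow (.v 1) 2) (.pow (.mul (.r 11) (.r 20)) 2)) /- q0 -/,
  .sub (.sub (.mul (.r 20) (.r 2)) (.mul (.mul (.k 2) (.v 1)) (.add (.mul (.v 1) (.r 4)) (.mul
    (.r 12) (.r 5))))) (.mul (.mul (.k 2) (.pow (.v 1) 2)) (.mul (.sub (.r 12) (.mul (.v 1) (.r
    21))) (.mul (.r 12) (.r 21)))) /- q1 -/,
  .add (.sub (.add (.r 2) (.mul (.r 21) (.r 4))) (.mul (.mul (.k 2) (.v 1)) (.add (.mul (.v 1)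
    (.r 6)) (.mul (.r 13) (.r 7))))) (.mul (.pow (.v 1) 2) (.sub (.pow (.sub (.r 13) (.mul (.v 1)
    (.r 22))) 2) (.mul (.mul (.k 2) (.v 1)) (.mul (.r 13) (.r 22))))) /- q2 -/,
  .add (.sub (.r 4) (.mul (.mul (.k 2) (.v 1)) (.add (.mul (.v 1) (.r 8)) (.mul (.r 14) (.r
    9))))) (.mul (.mul (.k 2) (.pow (.v 1) 3)) (.sub (.r 14) (.mul (.v 1) (.r 23)))) /- q3 -/,
  .add (.sub (.r 6) (.mul (.mul (.k 2) (.pow (.v 1) 2)) (.r 10))) (.pow (.v 1) 4) /- q4 -/,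
  .add (.sub (.mul (.v 1) (.add (.v 3) (.v 4))) (.mul (.v 0) (.v 5))) (.mul (.r 32) (.v 6)) /- W -/]

/-- the end of the program -/
def postI : List E1 := [
  .mul (.r 1) (.r 5) /- s1 -/,
  .mul (.r 3) (.r 5) /- s2 -/,
  .pow (.r 5) 2 /- s3 -/,
  .add (.sub (.mul (.k 12) (.r 2)) (.mul (.k 3) (.r 1))) (.r 0) /- I -/,
  .sub (.r 0) (tI.e 4 37 4)]

/-- the end of the program -/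
def postJ : List E1 := [
  .mul (.r 1) (.r 5) /- s1 -/,
  .mul (.r 3) (.r 5) /- s2 -/,
  .pow (.r 5) 2 /- s3 -/,
  .mul (.r 4) (.r 7) /- s4 -/,
  .mul (.r 6) (.r 9) /- s5 -/,
  .sub (.mul (.r 8) (.sub (.add (.mul (.k 72) (.r 4)) (.mul (.k 9) (.r 3))) (.mul (.k 2) (.r
    2)))) (.mul (.k 27) (.add (.mul (.r 1) (.r 9)) (.mul (.r 0) (.r 7)))) /- J -/,
  .sub (.r 0) (tJ.e 6 39 6)]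

theorem chkI : chk8 28 351 (pre ++ postI) = true := by decide +kernel

theorem chkJ : chk8 45 833 (pre ++ postJ) = true := by decide +kernel

end Vale.Agent.P297.H278
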