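import Vale.Agent.P297.H572.Ev

/-!
Nested coefficient lists over the base algebras of `H160/Kron` and `H572/Ev`: a kernel-friendly
check of polynomial identities of large degree in two variables and of small degree in the others.
-/

namespace Vale.Agent.P297.H278

open MvPolynomial Vale.Agent.P297.H160 Vale.Agent.P297.H572

section ops

variable {R : Type*} (o : Bo R)

/-- sum of polynomials -/
def adL : List R → List R → List R
  | [], l => l
  | a :: k, [] => a :: k
  | a :: k, b :: l => o.ad a b :: adL k l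

/-- difference of polynomials -/
def sbL : List R → List R → List R
  | k, [] => k
  | [], b :: l => o.sb (o.ci 0) b :: sbL [] l
  | a :: k, b :: l => o.sb a b :: sbL k l

/-- product of a coefficient and a polynomial -/
def smL (a : R) : List R → List R
  | [] => []
  | b :: l => o.ml a b :: smL a l

/-- product of polynomials -/
def mlL : List R → List R → List R
  | [], _ => []
  | _ :: _, [] => []
  | a :: k, b :: t => o.ml a b :: adL o (smL o a t) (mlL k (b :: t))

/-- force evaluation -/
def fcL : List R → Bool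
  | [] => true
  | a :: k => o.fc a && fcL k

/-- polynomials in the variable `v` -/
def lst (v : ℕ) : Bo (List R) where
  ad := adL o
  sb := sbL o
  ml := mlL o
  ci := fun z => match isZ1 z with
    | true => []
    | false => [o.ci z]
  vr := fun i => match Nat.beq i v with
    | true => [o.ci 0, o.ci 1]
    | false => [o.vr i]
  fc := fcL o

/-- every coefficient satisfies a test -/
def allL (t : R → Bool) : List R → Bool
  | [] => true
  | a :: k => t a && allL t k

end ops

/-- the value of a polynomial -/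
inductive LR {R A : Type*} [CommRing A] (ρ : R → A → Prop) (x : A) : List R → A → Prop
  | nil : LR ρ x [] 0
  | cons {r : R} {k : List R} {b a : A} : ρ r b → LR ρ x k a → LR ρ x (r :: k) (b + x * a)

section rel

variable {R A : Type*} [CommRing A] {o : Bo R} {ρ : R → A → Prop} {x : A} {l : List A}

theorem LR.cons' {r : R} {k : List R} {b a c : A} (h1 : ρ r b) (h2 : LR ρ x k a)
    (h : c = b + x * a) : LR ρ x (r :: k) c := by
  subst h
  exact .cons h1 h2

theorem LR.ad (h : BRel o (rg l) ρ) {k : List R} {a : A} (hk : LR ρ x k a) :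
    ∀ {k' : List R} {a' : A}, LR ρ x k' a' → LR ρ x (adL o k k') (a + a') := by
  induction hk with
  | nil =>
    intro k' a' h'
    rw [zero_add]
    cases k' <;> exact h'
  | cons h1 h2 ih =>
    intro k' a' h'
    cases h' with
    | nil =>
      rw [add_zero]
      exact .cons h1 h2
    | cons h3 h4 => exact .cons' (h.ad h1 h3) (ih h4) (by change _ = (_ + _) + _; ring)

theorem LR.sm (h : BRel o (rg l) ρ) {r : R} {b : A} (hr : ρ r b) {k : List R} {a : A}
    (hk : LR ρ x k a) : LR ρ x (smL o r k) (b * a) := by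
  induction hk with
  | nil =>
    rw [mul_zero]
    exact .nil
  | cons h1 h2 ih => exact .cons' (h.ml hr h1) ih (by change _ = (_ * _) + _; ring)

theorem LR.ml (h : BRel o (rg l) ρ) {k : List R} {a : A} (hk : LR ρ x k a) :
    ∀ {k' : List R} {a' : A}, LR ρ x k' a' → LR ρ x (mlL o k k') (a * a') := by
  induction hk with
  | nil =>
    intro k' a' h'
    rw [zero_mul]
    cases k' <;> exact .nil
  | cons h1 h2 ih =>
    intro k' a' h'
    cases h' with
    | nil =>
      rw [mul_zero]
      exact .nil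
    | cons h3 h4 =>
      exact .cons' (h.ml h1 h3) (LR.ad h (LR.sm h h1 h4) (ih (.cons h3 h4)))
        (by change _ = (_ * _) + _; ring)

theorem LR.sb (h : BRel o (rg l) ρ) {k' : List R} {a' : A} (hk : LR ρ x k' a') :
    ∀ {k : List R} {a : A}, LR ρ x k a → LR ρ x (sbL o k k') (a - a') := by
  induction hk with
  | nil =>
    intro k a h'
    rw [sub_zero]
    cases k <;> exact h'
  | cons h1 h2 ih =>
    intro k a h'
    cases h' with
    | nil =>
      refine .cons' (h.sb (h.ci 0) h1) (ih .nil) ?_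
      change _ = (((0 : ℤ) : A) - _) + _
      push_cast
      ring
    | cons h3 h4 => exact .cons' (h.sb h3 h1) (ih h4) (by change _ = (_ - _) + _; ring)

theorem vec_append (x : A) : ∀ (l : List A) (i : ℕ),
    vec (l ++ [x]) i = if i = l.length then x else vec l i
  | [], 0 => rfl
  | [], i + 1 => by
    rw [if_neg (by simp)]
    rfl
  | a :: l, 0 => by
    rw [if_neg (by simp)]
    rfl
  | a :: l, i + 1 => by
    change vec (l ++ [x]) i = _
    rw [vec_append x l i]
    simp only [List.length_cons, Nat.add_right_cancel_iff]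
    rfl

/-- **Polynomials in one more variable.** -/
theorem rel_lst (h : BRel o (rg l) ρ) (x : A) :
    BRel (lst o l.length) (rg (l ++ [x])) (LR ρ x) where
  ad := fun h1 h2 => LR.ad h h1 h2
  sb := fun h1 h2 => LR.sb h h2 h1
  ml := fun h1 h2 => LR.ml h h1 h2
  ci z := by
    change LR ρ x (match isZ1 z with
      | true => []
      | false => [o.ci z]) (z : A)
    cases hz : isZ1 z with
    | true =>
      have : z = 0 := by
        cases z with
        | ofNat n => rw [Nat.eq_of_beq_eq_true (show Nat.beq n 0 = true from hz)]; rfl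
        | negSucc n => simp [isZ1] at hz
      rw [this, Int.cast_zero]
      exact .nil
    | false => exact .cons' (h.ci z) .nil (by change _ = (z : A) + _; ring)
  vr i := by
    change LR ρ x (match Nat.beq i l.length with
      | true => [o.ci 0, o.ci 1]
      | false => [o.vr i]) (vec (l ++ [x]) i)
    rw [vec_append]
    cases hi : Nat.beq i l.length with
    | true =>
      rw [if_pos (Nat.eq_of_beq_eq_true hi)]
      refine .cons' (h.ci 0) (.cons (h.ci 1) .nil) ?_
      change _ = ((0 : ℤ) : A) + x * (((1 : ℤ) : A) + x * 0)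
      push_cast
      ring
    | false =>
      rw [if_neg (Nat.ne_of_beq_eq_false hi)]
      exact .cons' (h.vr i) .nil (by change _ = vec l i + _; ring)

/-- a test for zero -/
def Zr (t : R → Bool) (ρ : R → A → Prop) : Prop := ∀ r a, t r = true → ρ r a → a = 0

theorem Zr.lst {t : R → Bool} (h : Zr t ρ) (x : A) : Zr (allL t) (LR ρ x) := by
  intro k a hk ha
  induction ha with
  | nil => rfl
  | cons h1 h2 ih =>
    simp only [allL, Bool.and_eq_true] at hk
    rw [h _ _ hk.1 h1, ih hk.2]
    ring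

end rel

/-! ### The base: values and bounds -/

/-- pairs -/
def prB {R S : Type*} (o : Bo R) (o' : Bo S) : Bo (R × S) where
  ad := fun p q => match p, q with
    | (a, b), (c, d) => (o.ad a c, o'.ad b d)
  sb := fun p q => match p, q with
    | (a, b), (c, d) => (o.sb a c, o'.sb b d)
  ml := fun p q => match p, q with
    | (a, b), (c, d) => (o.ml a c, o'.ml b d)
  ci := fun z => (o.ci z, o'.ci z)
  vr := fun i => (o.vr i, o'.vr i)
  fc := fun p => match p with
    | (a, b) => o.fc a && o'.fc b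

theorem rel_prB {P R S : Type*} {p : Bo P} {o : Bo R} {o' : Bo S} {ρ : P → R → Prop}
    {σ : P → S → Prop} (h : BRel p o ρ) (h' : BRel p o' σ) :
    BRel p (prB o o') (fun a x => ρ a x.1 ∧ σ a x.2) where
  ad := fun h1 h2 => ⟨h.ad h1.1 h2.1, h'.ad h1.2 h2.2⟩
  sb := fun h1 h2 => ⟨h.sb h1.1 h2.1, h'.sb h1.2 h2.2⟩
  ml := fun h1 h2 => ⟨h.ml h1.1 h2.1, h'.ml h1.2 h2.2⟩
  ci z := ⟨h.ci z, h'.ci z⟩
  vr i := ⟨h.vr i, h'.vr i⟩

theorem rel_comp {P R S : Type*} {p : Bo P} {o : Bo R} {o' : Bo S} {ρ : P → R → Prop}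
    {σ : P → S → Prop} (h : BRel p o ρ) (h' : BRel p o' σ) :
    BRel o o' (fun x y => ∃ q, ρ q x ∧ σ q y) where
  ad := by
    rintro a b a' b' ⟨q, h1, h2⟩ ⟨q', h3, h4⟩
    exact ⟨_, h.ad h1 h3, h'.ad h2 h4⟩
  sb := by
    rintro a b a' b' ⟨q, h1, h2⟩ ⟨q', h3, h4⟩
    exact ⟨_, h.sb h1 h3, h'.sb h2 h4⟩
  ml := by
    rintro a b a' b' ⟨q, h1, h2⟩ ⟨q', h3, h4⟩
    exact ⟨_, h.ml h1 h3, h'.ml h2 h4⟩
  ci z := ⟨_, h.ci z, h'.ci z⟩
  vr i := ⟨_, h.vr i, h'.vr i⟩

/-- the base algebra: two variables, the values at `(2 ^ b0, 2 ^ b1)` and the bounds -/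
def bas (b0 b1 : ℕ) : Bo (ℤ × ℕ × ℕ) :=
  prB (boZ 2 (rad [b0, b1])) (prB (boN 2 0 (rad [b0, b1])) (boN 2 1 (rad [b0, b1])))

/-- the test of the base -/
def tst (b0 b1 : ℕ) : ℤ × ℕ × ℕ → Bool
  | (z, n0, n1) => isZ1 z && (Nat.blt n0 (2 ^ b0) && Nat.blt n1 (2 ^ b1))

section base

variable {A : Type*} [CommRing A] (x y : A) (b0 b1 : ℕ)

/-- the relation of the base -/
def RB (s : ℤ × ℕ × ℕ) (a : A) : Prop :=
  ∃ q : MvPolynomial (Fin 2) ℤ, (eval (fun i : Fin 2 => (rad [b0, b1] i : ℤ)) q = s.1 ∧
    Bd (fun i : Fin 2 => if (i : ℕ) < 0 then rad [b0, b1] i else 1) q s.2.1 ∧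
    Bd (fun i : Fin 2 => if (i : ℕ) < 1 then rad [b0, b1] i else 1) q s.2.2) ∧
    aeval (fun i : Fin 2 => [x, y][i]) q = a

theorem rel_bas : BRel (bas b0 b1) (rg [x, y]) (RB x y b0 b1) :=
  rel_comp (rel_prB (relPZ 2 (rad [b0, b1])) (rel_prB (relPN 2 0 (rad [b0, b1]))
    (relPN 2 1 (rad [b0, b1])))) (rel_poly [x, y])

theorem zr_bas : Zr (tst b0 b1) (RB x y b0 b1) := by
  rintro ⟨z, n0, n1⟩ a h ⟨q, ⟨h1, h2, h3⟩, h4⟩
  simp only [tst, Bool.and_eq_true] at h
  obtain ⟨k1, k2, k3⟩ := h
  have k2 := Nat.blt_eq.mp k2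
  have k3 := Nat.blt_eq.mp k3
  have hq : q = 0 := by
    refine poly_zero (rad [b0, b1]) q (fun k hk => ?_) ?_
    · interval_cases k
      · obtain ⟨Q, h5, h6⟩ := h2
        change n0 < rad [b0, b1] 0 at k2
        simp only at h6
        exact ⟨⟨Q, h5, by omega⟩, by omega⟩
      · obtain ⟨Q, h5, h6⟩ := h3
        change n1 < rad [b0, b1] 1 at k3
        simp only at h6
        exact ⟨⟨Q, h5, by omega⟩, by omega⟩
    · rw [h1]
      cases z with
      | ofNat n => rw [Nat.eq_of_beq_eq_true (show Nat.beq n 0 = true from k1)]; rfl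
      | negSucc n => simp [isZ1] at k1
  rw [← h4, hq, map_zero]

end base

/-! ### Six more variables -/

/-- the algebra of polynomials in eight variables -/
def bo8 (b0 b1 : ℕ) : Bo (List (List (List (List (List (List (ℤ × ℕ × ℕ))))))) :=
  lst (lst (lst (lst (lst (lst (bas b0 b1) 2) 3) 4) 5) 6) 7

/-- **the check**: `b0`, `b1` are the bit sizes of the radices -/
def chk8 (b0 b1 : ℕ) (es : List E1) : Bool :=
  top1 (allL (allL (allL (allL (allL (allL (tst b0 b1))))))) (run (bo8 b0 b1) [] es)

/-- **soundness**: the top register vanishes in every commutative ring -/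
theorem chk8_sound {b0 b1 : ℕ} {es : List E1} (h : chk8 b0 b1 es = true)
    {A : Type*} [CommRing A] (x0 x1 x2 x3 x4 x5 x6 x7 : A) :
    ∃ l', run (rg [x0, x1, x2, x3, x4, x5, x6, x7]) [] es = 0 :: l' := by
  have r2 := rel_lst (rel_bas x0 x1 b0 b1) x2
  have r3 := rel_lst r2 x3
  have r4 := rel_lst r3 x4
  have r5 := rel_lst r4 x5
  have r6 := rel_lst r5 x6
  have r7 := rel_lst r6 x7
  have z7 := (((((((zr_bas x0 x1 b0 b1).lst x2).lst x3).lst x4).lst x5).lst x6).lst x7)
  have k := rel_run r7 es .nil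
  change List.Forall₂ _ (run (bo8 b0 b1) [] es)
    (run (rg [x0, x1, x2, x3, x4, x5, x6, x7]) [] es) at k
  unfold chk8 at h
  generalize run (bo8 b0 b1) [] es = lz at k h
  generalize run (rg [x0, x1, x2, x3, x4, x5, x6, x7]) [] es = la at k ⊢
  cases k with
  | nil => simp [top1] at h
  | cons hz _ =>
    rename_i z a lz' la' _
    exact ⟨la', by rw [z7 _ _ h hz]⟩

end Vale.Agent.P297.H278
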